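import Vale.Agent.P281.H64.TK.SpecG
import Vale.Agent.P281.H64.Gen.SpecN
import Vale.Agent.P281.H713.Wrap

/-!
# P281, project T-KN (helper64): Kähler models and neat models, statements of the blocks (FROZEN)

A square `f ∘ u = v ∘ f₁`, where `u : X₁ → X`, `v : Y₁ → Y` are modifications and `X₁` is a compact
Kähler manifold. The fibre `f₁⁻¹(y₁)` is a modification of the fibre `F` of `f` over `y = v(y₁)`.
-/

open Set Filter Metric MeasureTheory Vale.Agent.P281 Vale.Agent.P281.H713 Vale.Agent.P272.K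
open Vale.Agent.P281.H64.Thin (IsThinSet)
open Vale.Agent.P281.H64.Gen (IsSmallSet IsSmall2 excSet NoExc ExcOne HartogsStmt)
open scoped Topology ContDiff Manifold ComplexConjugate ComplexOrder

noncomputable section

namespace Vale.Agent.P281.H64.TK

/-- **KN0**: the general fibres meet a small set of codimension two in a small set of codimension two.
(`N` is locally contained in countably many submanifolds `M` of codimension two; by `ImgLocStmt`, the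
images by `f` of the critical points of `f|M` are contained in a countable union of thin sets. Off
them, `f` and the equations `g` of `M` have independent differentials at the points of `M`, so
`d (g ∘ i)` is surjective.) -/
def GenNStmt : Prop :=
  ∀ (p d : ℕ) (X Y : Type) [TopologicalSpace X] [T2Space X] [CompactSpace X]
    [ChartedSpace (Cm (p + d)) X] [IsManifold 𝓘(ℂ, Cm (p + d)) ω X] [TopologicalSpace Y]
    [T2Space Y] [ChartedSpace (Cm p) Y] [IsManifold 𝓘(ℂ, Cm p) ω Y] (f : X → Y) (N : Set X),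
    ContMDiff 𝓘(ℂ, Cm (p + d)) 𝓘(ℂ, Cm p) ω f → IsSmall2 (Cm (p + d)) N →
    ∃ H : ℕ → Set Y, (∀ k, IsThinSet (Cm p) (H k)) ∧ ∀ y, (∀ k, y ∉ H k) →
      ∀ (F : Type) [TopologicalSpace F] [ChartedSpace (Cm d) F] (i : F → X),
        H511.Surf.IsFibre (Cm (p + d)) (Cm d) f y i → IsSmall2 (Cm d) (i ⁻¹' N)

/-- **KN0'**: the image by a modification `v` of a set contained in a countable union of thin sets is
contained in a countable union of thin sets, and so is `v '' excSet v` (`ImgLocStmt`). -/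
def ImgNStmt : Prop :=
  ∀ (p : ℕ) (Y Y₁ : Type) [TopologicalSpace Y] [T2Space Y] [ChartedSpace (Cm p) Y]
    [IsManifold 𝓘(ℂ, Cm p) ω Y] [TopologicalSpace Y₁] [T2Space Y₁] [CompactSpace Y₁]
    [ChartedSpace (Cm p) Y₁] [IsManifold 𝓘(ℂ, Cm p) ω Y₁] (v : Y₁ → Y) (H₁ : ℕ → Set Y₁),
    TZ.S.IsModif (Cm p) v → (∀ k, IsThinSet (Cm p) (H₁ k)) →
    ∃ H : ℕ → Set Y, (∀ k, IsThinSet (Cm p) (H k)) ∧
      v '' (excSet (Cm p) v ∪ ⋃ k, H₁ k) ⊆ ⋃ k, H k

/-- The square `f ∘ u = v ∘ f₁` at `y = v(y₁)`, with the smooth fibres `F = f⁻¹(y)` and `f₁⁻¹(y₁)`,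
which is mapped onto `F` by `u`. -/
structure IsSquare (n p d : ℕ) {X Y X₁ Y₁ F : Type} [TopologicalSpace X] [ChartedSpace (Cm n) X]
    [TopologicalSpace Y] [ChartedSpace (Cm p) Y] [TopologicalSpace X₁] [ChartedSpace (Cm n) X₁]
    [TopologicalSpace Y₁] [ChartedSpace (Cm p) Y₁] [TopologicalSpace F] [ChartedSpace (Cm d) F]
    (f : X → Y) (f₁ : X₁ → Y₁) (u : X₁ → X) (v : Y₁ → Y) (S : Set Y) (S₁ : Set Y₁) (y : Y)
    (y₁ : Y₁) (i : F → X) : Prop where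
  modif : TZ.S.IsModif (Cm n) u
  comm : ∀ x, f (u x) = v (f₁ x)
  hol : ContMDiff 𝓘(ℂ, Cm n) 𝓘(ℂ, Cm p) ω f
  hol₁ : ContMDiff 𝓘(ℂ, Cm n) 𝓘(ℂ, Cm p) ω f₁
  proper : IsProperFibration (n := n) (p := p) f S
  proper₁ : IsProperFibration (n := n) (p := p) f₁ S₁
  out : y ∉ S
  out₁ : y₁ ∉ S₁
  pre : v ⁻¹' {y} = {y₁}
  fibre : H511.Surf.IsFibre (Cm n) (Cm d) f y i
  inj : Function.Injective i
  small : IsSmall2 (Cm d) (i ⁻¹' (u '' excSet (Cm n) u))

/-- **KN1** (as FIB): the closed holomorphic 1-forms of `F` define additive functions on the universal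
covering `E` of `f₁⁻¹(y₁)`, by `E → f₁⁻¹(y₁) → F`. (Move the point `x` of `GaussRank` off the small
set; there `u` is locally biholomorphic.) -/
def FibNStmt : Prop :=
  ∀ (p d r : ℕ) (X Y X₁ Y₁ : Type) [TopologicalSpace X] [T2Space X] [ChartedSpace (Cm (p + d)) X]
    [IsManifold 𝓘(ℂ, Cm (p + d)) ω X] [TopologicalSpace Y] [T2Space Y] [ChartedSpace (Cm p) Y]
    [IsManifold 𝓘(ℂ, Cm p) ω Y] [TopologicalSpace X₁] [T2Space X₁] [ChartedSpace (Cm (p + d)) X₁]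
    [IsManifold 𝓘(ℂ, Cm (p + d)) ω X₁] [TopologicalSpace Y₁] [T2Space Y₁]
    [ChartedSpace (Cm p) Y₁] [IsManifold 𝓘(ℂ, Cm p) ω Y₁] (f : X → Y) (f₁ : X₁ → Y₁) (u : X₁ → X)
    (v : Y₁ → Y) (S : Set Y) (S₁ : Set Y₁) (y : Y) (y₁ : Y₁) (F : Type) [TopologicalSpace F]
    [ChartedSpace (Cm d) F] (i : F → X), 0 < d → IsSquare (p + d) p d f f₁ u v S S₁ y y₁ i →
    ABStmt → GaussRank d F r → NDeg (p + d) p d r f₁ y₁

/-- **KN3**: the Kodaira dimension of `F` is at least the rank of the Gauss map of `f₁⁻¹(y₁)`: the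
products `dh_1 ∧ ⋯ ∧ dh_d` of additive functions on `E` are sections of `K` on `f₁⁻¹(y₁)`, hence on
`F` minus a small set of codimension two, hence (Hartogs) on `F`. (`kodR ≠ ⊥` gives `m > 0` with
`m Δ` integral and a point of `F` in no component of `Δ`; take `s_b s_0^(m-1)`.) -/
def KodNStmt : Prop :=
  ∀ (p d r : ℕ) (X Y X₁ Y₁ : Type) [TopologicalSpace X] [T2Space X] [ChartedSpace (Cm (p + d)) X]
    [IsManifold 𝓘(ℂ, Cm (p + d)) ω X] [TopologicalSpace Y] [T2Space Y] [ChartedSpace (Cm p) Y]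
    [IsManifold 𝓘(ℂ, Cm p) ω Y] [TopologicalSpace X₁] [T2Space X₁] [ChartedSpace (Cm (p + d)) X₁]
    [IsManifold 𝓘(ℂ, Cm (p + d)) ω X₁] [TopologicalSpace Y₁] [T2Space Y₁]
    [ChartedSpace (Cm p) Y₁] [IsManifold 𝓘(ℂ, Cm p) ω Y₁] (f : X → Y) (f₁ : X₁ → Y₁) (u : X₁ → X)
    (v : Y₁ → Y) (S : Set Y) (S₁ : Set Y₁) (y : Y) (y₁ : Y₁) (F : Type) [TopologicalSpace F]
    [ChartedSpace (Cm d) F] (i : F → X) (Δ : Set X → ℝ), 0 < d →
    IsSquare (p + d) p d f f₁ u v S S₁ y y₁ i → HartogsStmt → J.IsSNC (Cm (p + d)) Δ →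
    NDeg (p + d) p d r f₁ y₁ → TZ.S.kodR (Cm (p + d)) (Cm d) i Δ ≠ ⊥ →
    ((r : ℕ∞) : WithBot ℕ∞) ≤ TZ.S.kodR (Cm (p + d)) (Cm d) i Δ

/-- **KN4**: the forms of rank `0`, for a family of fibres of maximal Albanese dimension `d = g`
(by `H713.hasForms_periods`, with `N = 1`, `r = 0`, no K3 periods: the form is the Jacobian of the
Albanese map). -/
def Has0Stmt : Prop :=
  ∀ (p d : ℕ) (Z Y : Type) [TopologicalSpace Z] [T2Space Z] [ChartedSpace (Cm (p + d)) Z]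
    [IsManifold 𝓘(ℂ, Cm (p + d)) ω Z] [TopologicalSpace Y] [T2Space Y] [ChartedSpace (Cm p) Y]
    [IsManifold 𝓘(ℂ, Cm p) ω Y] (f : Z → Y) (S : Set Y)
    (w : Chart (p + d) Z → Cm (p + d) → Matrix (Fin (p + d)) (Fin (p + d)) ℂ), 0 < d →
    ContMDiff 𝓘(ℂ, Cm (p + d)) 𝓘(ℂ, Cm p) ω f →
    IsProperFibration (n := p + d) (p := p) f S → IsPreconnected Sᶜ → IsKahler w →
    (∀ y ∉ S, NDeg (p + d) p d 0 f y) → (∃ y ∉ S, ¬ NDeg (p + d) p d 1 f y) →
    ∀ (e₀ : Cm (p + d) ≃L[ℂ] (Cm p × Cm d)) (Δ : Set Z → ℝ), (∀ D, 0 ≤ Δ D) →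
    ∀ y ∉ S, HasForms f S e₀ Δ 0 y

/-- **T-KN**, the goal: Campana's inequality for the fibrations `f : (X, Δ) → Y` which have a model
`f₁ : (X₁, Δ₁) → Y₁`, with `X₁` Kähler, without exceptional divisors or neat, for the fibres `F`
of maximal Albanese dimension with generically immersive Gauss map, or with
`κ(F, K_F + Δ|F) ≤ 0`. -/
def TKNStmt : Prop :=
  ∀ (p d : ℕ) (X Y X₁ Y₁ : Type) [TopologicalSpace X] [ChartedSpace (Cm (p + d)) X]
    [TopologicalSpace Y] [ChartedSpace (Cm p) Y] [TopologicalSpace X₁]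
    [ChartedSpace (Cm (p + d)) X₁] [TopologicalSpace Y₁] [ChartedSpace (Cm p) Y₁]
    (f : X → Y) (Δ : Set X → ℝ) (f₁ : X₁ → Y₁) (Δ₁ : Set X₁ → ℝ), 0 < d →
    H511.Surf.IsFibration (Cm (p + d)) (Cm p) f Δ →
    H511.Surf.IsFibration (Cm (p + d)) (Cm p) f₁ Δ₁ →
    TZ.S.IsStep (Cm (p + d)) (Cm p) f₁ Δ₁ f Δ →
    NoExc (Cm (p + d)) (Cm p) f₁ ∨ ExcOne (Cm (p + d)) (Cm p) f₁ Δ₁ →
    (∃ w : Chart (p + d) X₁ → Cm (p + d) → Matrix (Fin (p + d)) (Fin (p + d)) ℂ, IsKahler w) →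
    ∃ H : ℕ → Set Y, (∀ k, IsThinSet (Cm p) (H k)) ∧ ∀ y, (∀ k, y ∉ H k) →
      ∀ (F : Type) [TopologicalSpace F] [ChartedSpace (Cm d) F] (i : F → X),
        H511.Surf.IsFibre (Cm (p + d)) (Cm d) f y i → Function.Injective i →
        GaussRank d F d ∨ (GaussRank d F 0 ∧ TZ.S.kodR (Cm (p + d)) (Cm d) i Δ ≤ 0) →
        H511.Surf.Q1 (Cm (p + d)) (Cm p) (Cm d) f Δ i

end Vale.Agent.P281.H64.TK
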