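import Vale.Agent.P281.H64.TK.SpecG

/-!
# P281, project T-K (helper64): the case of complex tori, statements (FROZEN)
-/

open Set Filter Metric MeasureTheory Vale.Agent.P281 Vale.Agent.P281.H713 Vale.Agent.P272.K
open Vale.Agent.P281.H64.Thin (IsThinSet)
open Vale.Agent.P281.H64.Gen (IsSmallSet NoExc)
open scoped Topology ContDiff Manifold ComplexConjugate ComplexOrder

noncomputable section

namespace Vale.Agent.P281.H64.TK

/-- There are `d` holomorphic additive functions with nowhere vanishing Jacobian determinant. -/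
def Sheets.IsTor {d : ℕ} {E Γ : Type} [TopologicalSpace E] [Group Γ] [MulAction Γ E]
    (S : Sheets d E Γ) : Prop :=
  ∃ h : E → Cm d, (∀ a, ∃ b, Add S (fun e => h e a) b) ∧
    ∀ i, ∀ z ∈ ball (0 : Cm d) 3, S.minor h i z ≠ 0

/-- **TUNI**: then `h : E → ℂ^d` is a homeomorphism (`h` is a local homeomorphism; by compactness of
`E / Γ` every point of `E` has a neighbourhood mapped homeomorphically onto a ball of fixed radius,
so `h` is a covering of the simply connected `ℂ^d`), and `γ ↦` periods is injective. -/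
def TUniStmt : Prop :=
  ∀ (d : ℕ) (E Γ : Type) [TopologicalSpace E] [T2Space E] [SimplyConnectedSpace E] [Group Γ]
    [MulAction Γ E] [ContinuousConstSMul Γ E] (S : Sheets d E Γ) (h : E → Cm d)
    (c : Γ → Cm d), 0 < d → (∀ a, Add S (fun e => h e a) fun γ => c γ a) →
    (∀ i, ∀ z ∈ ball (0 : Cm d) 3, S.minor h i z ≠ 0) →
    Function.Bijective h ∧ IsOpenMap h ∧ Continuous h ∧ Function.Injective c

/-- **TBAS**: and these functions are a basis of the additive functions (`dh' = Σ f_a dh_a` with `f_a`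
holomorphic on the compact `E / Γ`, so constant). -/
def TBasStmt : Prop :=
  ∀ (d : ℕ) (E Γ : Type) [TopologicalSpace E] [T2Space E] [SimplyConnectedSpace E] [Group Γ]
    [MulAction Γ E] [ContinuousConstSMul Γ E] (S : Sheets d E Γ) (h : E → Cm d)
    (c : Γ → Cm d), 0 < d → (∀ a, Add S (fun e => h e a) fun γ => c γ a) →
    (∀ i, ∀ z ∈ ball (0 : Cm d) 3, S.minor h i z ≠ 0) → IsBas S (g := d) h c

/-- In some model of `f` at `y`, the fibre is a torus. -/
def IsTorAt (n p d : ℕ) {Z Y : Type} [TopologicalSpace Z] [ChartedSpace (Cm n) Z]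
    [TopologicalSpace Y] [ChartedSpace (Cm p) Y] (f : Z → Y) (y : Y) : Prop :=
  ∃ (E Γ : Type) (_ : TopologicalSpace E) (_ : T2Space E) (_ : SimplyConnectedSpace E)
    (_ : Group Γ) (_ : MulAction Γ E) (_ : ContinuousConstSMul Γ E) (𝓕 : Fam p d E Γ)
    (q : Cm p → E → Z) (χ : OpenPartialHomeomorph Y (Cm p)) (t : Cm p) (ht : t ∈ 𝓕.T),
    Model (n := n) f 𝓕 χ q ∧ χ.symm t = y ∧ (𝓕.at t ht).IsTor

/-- **TOC**: if one fibre over `Y ∖ S` is a torus, and the Jacobian of the Albanese map of no fibre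
over `Y ∖ S` is identically zero (NDeg with `r = 0`), then all these fibres are tori. (The set of `y`
for which the Jacobian, a holomorphic function of `(t, z)` not identically zero on the fibres, has
a zero in the fibre is closed by compactness, and open by Hurwitz's theorem; the Jacobians are
proportional since all bases of additive functions have `g = d` elements: constancy of
`n = 2 g`.) -/
def TocStmt : Prop :=
  ∀ (p d : ℕ) (Z Y : Type) [TopologicalSpace Z] [T2Space Z] [ChartedSpace (Cm (p + d)) Z]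
    [IsManifold 𝓘(ℂ, Cm (p + d)) ω Z] [TopologicalSpace Y] [T2Space Y] [ChartedSpace (Cm p) Y]
    [IsManifold 𝓘(ℂ, Cm p) ω Y] (f : Z → Y) (S : Set Y)
    (w : Chart (p + d) Z → Cm (p + d) → Matrix (Fin (p + d)) (Fin (p + d)) ℂ), 0 < d →
    ContMDiff 𝓘(ℂ, Cm (p + d)) 𝓘(ℂ, Cm p) ω f →
    IsProperFibration (n := p + d) (p := p) f S → IsPreconnected Sᶜ → IsKahler w →
    (∀ y ∉ S, NDeg (p + d) p d 0 f y) → (∃ y ∉ S, IsTorAt (p + d) p d f y) →
    ∀ y ∉ S, IsTorAt (p + d) p d f y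

/-- **TFAM** (assembly). -/
def TFamStmt : Prop :=
  ∀ (p d : ℕ) (Z Y : Type) [TopologicalSpace Z] [T2Space Z] [ChartedSpace (Cm (p + d)) Z]
    [IsManifold 𝓘(ℂ, Cm (p + d)) ω Z] [TopologicalSpace Y] [T2Space Y] [ChartedSpace (Cm p) Y]
    [IsManifold 𝓘(ℂ, Cm p) ω Y] (f : Z → Y) (S : Set Y)
    (w : Chart (p + d) Z → Cm (p + d) → Matrix (Fin (p + d)) (Fin (p + d)) ℂ), 0 < d →
    ContMDiff 𝓘(ℂ, Cm (p + d)) 𝓘(ℂ, Cm p) ω f →
    IsProperFibration (n := p + d) (p := p) f S → IsPreconnected Sᶜ → IsKahler w →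
    (∀ y ∉ S, IsTorAt (p + d) p d f y) → Sᶜ.Nonempty →
    ∃ (n : ℕ) (Q : (Fin n → ℝ) → (Fin n → ℝ) → ℝ) (ι : Type) (U : ι → Set Y)
      (π : ι → Y → ((Fin n → ℝ) ≃L[ℝ] EuclideanSpace ℂ (Fin d)))
      (u : ι → Y → EuclideanSpace ℂ (Fin d) → Z),
      IsTorusFamily (Cm (p + d)) (Cm p) f S Q U π u

/-- `F` has `d` closed holomorphic 1-forms which are linearly independent at every point (that is, if
`F` is compact: `F` is a complex torus). -/
def IsParallel (d : ℕ) (F : Type) [TopologicalSpace F] [ChartedSpace (Cm d) F] : Prop :=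
  ∃ η : Fin d → F → (Cm d →L[ℂ] ℂ), (∀ a x, ∃ ψ : F → ℂ, J.HolAt (Cm d) ψ x ∧
    ∀ᶠ z in 𝓝 x, η a z = J.dif (Cm d) ψ z) ∧ ∀ x v, (∀ a, η a x v = 0) → v = 0

/-- **TFIB** -/
def TFibStmt : Prop :=
  ∀ (p d : ℕ) (Z Y : Type) [TopologicalSpace Z] [T2Space Z] [ChartedSpace (Cm (p + d)) Z]
    [IsManifold 𝓘(ℂ, Cm (p + d)) ω Z] [TopologicalSpace Y] [T2Space Y] [ChartedSpace (Cm p) Y]
    [IsManifold 𝓘(ℂ, Cm p) ω Y] (f : Z → Y) (S : Set Y), 0 < d →
    ContMDiff 𝓘(ℂ, Cm (p + d)) 𝓘(ℂ, Cm p) ω f →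
    IsProperFibration (n := p + d) (p := p) f S → ABStmt →
    ∀ y ∉ S, ∀ (F : Type) [TopologicalSpace F] [ChartedSpace (Cm d) F] (i : F → Z),
      H511.Surf.IsFibre (Cm (p + d)) (Cm d) f y i → Function.Injective i → IsParallel d F →
      IsTorAt (p + d) p d f y

/-- **TKOD**: a compact connected manifold with `d` independent closed 1-forms, in the fibre of `f`
over `y`, which does not meet the boundary, has Kodaira dimension `≤ 0` (sections of `m K_F` are
constant multiples of `(η_1 ∧ ⋯ ∧ η_d)^m`). -/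
def TKodStmt : Prop :=
  ∀ (n d : ℕ) (X F : Type) [TopologicalSpace X] [ChartedSpace (Cm n) X]
    [IsManifold 𝓘(ℂ, Cm n) ω X] [TopologicalSpace F] [ChartedSpace (Cm d) F]
    [IsManifold 𝓘(ℂ, Cm d) ω F] [CompactSpace F] [ConnectedSpace F] (i : F → X)
    (Δ : Set X → ℝ), 0 < d → ContMDiff 𝓘(ℂ, Cm d) 𝓘(ℂ, Cm n) ω i → IsParallel d F →
    (∀ D, Δ D ≠ 0 → ∀ t, i t ∉ D) → TZ.S.kodR (Cm n) (Cm d) i Δ ≤ 0

/-- **T-T**, the goal for tori. -/
def TTStmt : Prop :=
  ∀ (p d : ℕ) (X Y : Type) [TopologicalSpace X] [ChartedSpace (Cm (p + d)) X]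
    [TopologicalSpace Y] [ChartedSpace (Cm p) Y] (f : X → Y) (Δ : Set X → ℝ), 0 < d →
    H511.Surf.IsFibration (Cm (p + d)) (Cm p) f Δ →
    (∃ w : Chart (p + d) X → Cm (p + d) → Matrix (Fin (p + d)) (Fin (p + d)) ℂ, IsKahler w) →
    ∃ H : ℕ → Set Y, (∀ k, IsThinSet (Cm p) (H k)) ∧ ∀ y, (∀ k, y ∉ H k) →
      ∀ (F : Type) [TopologicalSpace F] [ChartedSpace (Cm d) F] (i : F → X),
        H511.Surf.IsFibre (Cm (p + d)) (Cm d) f y i → Function.Injective i → IsParallel d F →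
        (∀ D, Δ D ≠ 0 → ∀ t, i t ∉ D) →
        (TZ.S.kodR (Cm (p + d)) (Cm d) i Δ + TZ.S.kodF (p + d) p Δ (id : X → X) f ≤
            TZ.S.kodX (Cm (p + d)) Δ ∧
          TZ.S.KapLe (Cm (p + d)) (Cm p) f Δ (TZ.S.kodF (p + d) p Δ (id : X → X) f)) ∧
        (NoExc (Cm (p + d)) (Cm p) f → H511.Surf.Q1 (Cm (p + d)) (Cm p) (Cm d) f Δ i)

end Vale.Agent.P281.H64.TK
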