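import Vale.Agent.P281.H64.TK.Spec
import Vale.Agent.P281.H64.Gen.Spec
import Vale.Agent.P281.H511.Surf.Defs

/-!
# P281, project T-K (helper64): statements of the geometric blocks (FROZEN)
-/

open Set Filter Metric MeasureTheory Vale.Agent.P281 Vale.Agent.P281.H713 Vale.Agent.P272.K
open Vale.Agent.P281.H64.Thin (IsThinSet)
open Vale.Agent.P281.H64.Gen (IsSmallSet NoExc)
open scoped Topology ContDiff Manifold ComplexConjugate ComplexOrder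

noncomputable section

namespace Vale.Agent.P281.H64.TK

section
variable {d : ℕ} {E Γ : Type} [TopologicalSpace E] [Group Γ] [MulAction Γ E]

/-- The Gauss map of the holomorphic additive functions has rank at least `r` at the point `z` of the
sheet `i`: there are `r + 1` products `s_k = dh_{k,1} ∧ ⋯ ∧ dh_{k,d}` such that `s_0 ≠ 0` at this
point and `(s_1 / s_0, …, s_r / s_0)` is submersive there. -/
def Sheets.GaussAt (S : Sheets d E Γ) (r : ℕ) (i : Fin S.N) (z : Cm d) : Prop :=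
  ∃ h : Fin (r + 1) → E → Cm d, (∀ k a, ∃ b, Add S (fun e => h k e a) b) ∧ S.minor (h 0) i z ≠ 0 ∧
    Function.Surjective fun (ξ : Cm d) (k : Fin r) =>
      fderiv ℂ (fun u => S.minor (h k.succ) i u / S.minor (h 0) i u) z ξ

end

section
variable {n p d : ℕ} {Z Y : Type} [TopologicalSpace Z] [ChartedSpace (Cm n) Z]
  [TopologicalSpace Y] [ChartedSpace (Cm p) Y] {E Γ : Type} [TopologicalSpace E] [Group Γ]
  [MulAction Γ E]

/-- The family `𝓕` is `f` over the open set `χ⁻¹(T)` of `Y`: the map `q t : E → f⁻¹(χ⁻¹ t)` is the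
universal covering, and `(t, z) ↦ q t (σ i t z)` are holomorphic charts of `Z`. -/
structure Model (f : Z → Y) (𝓕 : Fam p d E Γ) (χ : OpenPartialHomeomorph Y (Cm p))
    (q : Cm p → E → Z) : Prop where
  atlas : χ ∈ atlas (Cm p) Y
  sub : 𝓕.T ⊆ χ.target
  fib : ∀ t ∈ 𝓕.T, ∀ e, f (q t e) = χ.symm t
  eq : ∀ t ∈ 𝓕.T, ∀ e e', q t e = q t e' ↔ ∃ γ : Γ, γ • e = e'
  surj : ∀ z, f z ∈ χ.source → χ (f z) ∈ 𝓕.T → ∃ e, q (χ (f z)) e = z
  hol : ∀ i, ∀ t ∈ 𝓕.T, ∀ z ∈ ball (0 : Cm d) 3,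
    ContMDiffAt 𝓘(ℂ, Cm p × Cm d) 𝓘(ℂ, Cm n) ω
      (fun r : Cm p × Cm d => q r.1 (𝓕.σ i r.1 r.2)) (t, z)
  coord : ∀ i, ∀ t ∈ 𝓕.T, ∀ z ∈ ball (0 : Cm d) 3, ∃ ζ : Z → Cm d,
    ContMDiffAt 𝓘(ℂ, Cm n) 𝓘(ℂ, Cm d) ω ζ (q t (𝓕.σ i t z)) ∧ ζ (q t (𝓕.σ i t z)) = z ∧
    ∀ᶠ x in 𝓝 (q t (𝓕.σ i t z)), q (χ (f x)) (𝓕.σ i (χ (f x)) (ζ x)) = x
  cov : ∀ t (ht : t ∈ 𝓕.T), IsCoveringMap fun e : E => (⟨q t e, fib t ht e⟩ : f ⁻¹' {χ.symm t})

/-- The Jacobian matrix of `(t, z) ↦ e (q t (σ i t z))`, `e` a chart of `Z`. -/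
def Fam.jacE (𝓕 : Fam p d E Γ) (q : Cm p → E → Z) (e : Chart n Z) (i : Fin 𝓕.N)
    (r : Cm p × Cm d) : Matrix (Fin n) (Fin p ⊕ Fin d) ℂ :=
  Matrix.of fun a b => fderiv ℂ (fun r : Cm p × Cm d => e (q r.1 (𝓕.σ i r.1 r.2))) r (bv b) a

/-- `W` is the Kähler metric `w` of `Z` in the coordinates `(t, z)` of the family. -/
def IsPull (w : Chart n Z → Cm n → Matrix (Fin n) (Fin n) ℂ) (𝓕 : Fam p d E Γ)
    (q : Cm p → E → Z)
    (W : Fin 𝓕.N → Cm p × Cm d → Matrix (Fin p ⊕ Fin d) (Fin p ⊕ Fin d) ℂ) : Prop :=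
  ∀ i, ∀ t ∈ 𝓕.T, ∀ z ∈ ball (0 : Cm d) 3, ∀ e : Chart n Z, At e (q t (𝓕.σ i t z)) →
    W i (t, z) = (𝓕.jacE q e i (t, z)).transpose * w e (e (q t (𝓕.σ i t z))) *
      (𝓕.jacE q e i (t, z)).map conj

/-- In some model of `f` at `y`, the Gauss map of the fibre has rank at least `r` at some point. -/
def NDeg (n p d r : ℕ) {Z Y : Type} [TopologicalSpace Z] [ChartedSpace (Cm n) Z]
    [TopologicalSpace Y] [ChartedSpace (Cm p) Y] (f : Z → Y) (y : Y) : Prop :=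
  ∃ (E Γ : Type) (_ : TopologicalSpace E) (_ : T2Space E) (_ : SimplyConnectedSpace E)
    (_ : Group Γ) (_ : MulAction Γ E) (_ : ContinuousConstSMul Γ E) (𝓕 : Fam p d E Γ)
    (q : Cm p → E → Z) (χ : OpenPartialHomeomorph Y (Cm p)) (t : Cm p) (ht : t ∈ 𝓕.T),
    Model (n := n) f 𝓕 χ q ∧ χ.symm t = y ∧ ∃ i, ∃ z ∈ ball (0 : Cm d) 3,
      (𝓕.at t ht).GaussAt r i z

end

/-- **AB** (Ehresmann): near every point of `Y ∖ S`, `f` is given by a family `𝓕` over a ball. -/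
def ABStmt : Prop :=
  ∀ (p d : ℕ) (Z Y : Type) [TopologicalSpace Z] [T2Space Z] [ChartedSpace (Cm (p + d)) Z]
    [IsManifold 𝓘(ℂ, Cm (p + d)) ω Z] [TopologicalSpace Y] [T2Space Y] [ChartedSpace (Cm p) Y]
    [IsManifold 𝓘(ℂ, Cm p) ω Y] (f : Z → Y) (S : Set Y), 0 < d →
    ContMDiff 𝓘(ℂ, Cm (p + d)) 𝓘(ℂ, Cm p) ω f → IsProperFibration (n := p + d) (p := p) f S →
    ∀ y₀ ∉ S, ∃ (E Γ : Type) (_ : TopologicalSpace E) (_ : T2Space E) (_ : SimplyConnectedSpace E)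
      (_ : Group Γ) (_ : MulAction Γ E) (_ : ContinuousConstSMul Γ E) (𝓕 : Fam p d E Γ)
      (q : Cm p → E → Z), Model (n := p + d) f 𝓕 (chartAt (Cm p) y₀) q ∧
      chartAt (Cm p) y₀ y₀ ∈ 𝓕.T ∧ ∀ t ∈ 𝓕.T, (chartAt (Cm p) y₀).symm t ∉ S

/-- **W**: the Kähler metric of `Z` in the coordinates of a family. -/
def WStmt : Prop :=
  ∀ (p d : ℕ) (Z Y : Type) [TopologicalSpace Z] [T2Space Z] [ChartedSpace (Cm (p + d)) Z]
    [IsManifold 𝓘(ℂ, Cm (p + d)) ω Z] [TopologicalSpace Y] [T2Space Y] [ChartedSpace (Cm p) Y]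
    [IsManifold 𝓘(ℂ, Cm p) ω Y] (f : Z → Y)
    (w : Chart (p + d) Z → Cm (p + d) → Matrix (Fin (p + d)) (Fin (p + d)) ℂ)
    (E Γ : Type) [TopologicalSpace E] [T2Space E] [SimplyConnectedSpace E] [Group Γ]
    [MulAction Γ E] [ContinuousConstSMul Γ E] (𝓕 : Fam p d E Γ) (q : Cm p → E → Z)
    (χ : OpenPartialHomeomorph Y (Cm p)), ContMDiff 𝓘(ℂ, Cm (p + d)) 𝓘(ℂ, Cm p) ω f →
    Model (n := p + d) f 𝓕 χ q → IsKahler w →
    ∃ W : Fin 𝓕.N → Cm p × Cm d → Matrix (Fin p ⊕ Fin d) (Fin p ⊕ Fin d) ℂ,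
      IsPull w 𝓕 q W ∧ KFam 𝓕 W

/-- **K**: two models at the same point `y` of `Y`: isomorphic coverings of the fibre, with the same
metric. -/
def KStmt : Prop :=
  ∀ (p d : ℕ) (Z Y : Type) [TopologicalSpace Z] [T2Space Z] [ChartedSpace (Cm (p + d)) Z]
    [IsManifold 𝓘(ℂ, Cm (p + d)) ω Z] [TopologicalSpace Y] [T2Space Y] [ChartedSpace (Cm p) Y]
    [IsManifold 𝓘(ℂ, Cm p) ω Y] (f : Z → Y)
    (w : Chart (p + d) Z → Cm (p + d) → Matrix (Fin (p + d)) (Fin (p + d)) ℂ)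
    (E Γ : Type) [TopologicalSpace E] [T2Space E] [SimplyConnectedSpace E] [Group Γ]
    [MulAction Γ E] [ContinuousConstSMul Γ E] (𝓕 : Fam p d E Γ) (q : Cm p → E → Z)
    (χ : OpenPartialHomeomorph Y (Cm p))
    (E' Γ' : Type) [TopologicalSpace E'] [T2Space E'] [SimplyConnectedSpace E'] [Group Γ']
    [MulAction Γ' E'] [ContinuousConstSMul Γ' E'] (𝓕' : Fam p d E' Γ') (q' : Cm p → E' → Z)
    (χ' : OpenPartialHomeomorph Y (Cm p))
    (W : Fin 𝓕.N → Cm p × Cm d → Matrix (Fin p ⊕ Fin d) (Fin p ⊕ Fin d) ℂ)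
    (W' : Fin 𝓕'.N → Cm p × Cm d → Matrix (Fin p ⊕ Fin d) (Fin p ⊕ Fin d) ℂ), 0 < d →
    ContMDiff 𝓘(ℂ, Cm (p + d)) 𝓘(ℂ, Cm p) ω f →
    Model (n := p + d) f 𝓕 χ q → Model (n := p + d) f 𝓕' χ' q' → IsKahler w →
    IsPull w 𝓕 q W → IsPull w 𝓕' q' W' →
    ∀ t ∈ 𝓕.T, ∀ t' ∈ 𝓕'.T, χ.symm t = χ'.symm t' →
    ∃ (τ : E ≃ₜ E') (ρ : Γ ≃* Γ'), (∀ γ e, τ (γ • e) = ρ γ • τ e) ∧
      (∀ e, q' t' (τ e) = q t e) ∧
      (∀ i j, ∀ z ∈ ball (0 : Cm d) 3, ∀ z' ∈ ball (0 : Cm d) 3, ∀ γ : Γ',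
        τ (𝓕.σ i t z) = γ • 𝓕'.σ j t' z' → ∃ θ : Cm d → Cm d, AnalyticAt ℂ θ z ∧ θ z = z' ∧
          (jac θ z).det ≠ 0 ∧ ∀ᶠ u in 𝓝 z, τ (𝓕.σ i t u) = γ • 𝓕'.σ j t' (θ u)) ∧
      ∀ i j, ∀ z ∈ ball (0 : Cm d) 3, ∀ z' ∈ ball (0 : Cm d) 3, ∀ (γ : Γ') (θ : Cm d → Cm d),
        AnalyticAt ℂ θ z → θ z = z' → (∀ᶠ u in 𝓝 z, τ (𝓕.σ i t u) = γ • 𝓕'.σ j t' (θ u)) →
          fibW W t i z = (jac θ z).transpose * fibW W' t' j z' * (jac θ z).map conj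

/-- **DEG**: if the Gauss map of one fibre over `Y ∖ S` has rank at least `r` somewhere, this is true
for all the fibres over the complement of a small closed set `S' ⊇ S`. (In the family of a model,
with holomorphic bases (block D), the set of bad `t` is the set of common zeros of (infinitely many)
holomorphic functions of `t`: Taylor coefficients of minors of jets. The set of `y` near which all
the points are bad is open and closed in `Y ∖ S`. Lindelöf: `Y ∖ S` is σ-compact, since `X` is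
compact.) -/
def DegStmt : Prop :=
  ∀ (p d r : ℕ) (Z Y : Type) [TopologicalSpace Z] [T2Space Z] [CompactSpace Z]
    [ChartedSpace (Cm (p + d)) Z] [IsManifold 𝓘(ℂ, Cm (p + d)) ω Z] [TopologicalSpace Y]
    [T2Space Y] [ChartedSpace (Cm p) Y] [IsManifold 𝓘(ℂ, Cm p) ω Y] (f : Z → Y) (S : Set Y)
    (w : Chart (p + d) Z → Cm (p + d) → Matrix (Fin (p + d)) (Fin (p + d)) ℂ), 0 < d →
    ContMDiff 𝓘(ℂ, Cm (p + d)) 𝓘(ℂ, Cm p) ω f → Function.Surjective f →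
    IsProperFibration (n := p + d) (p := p) f S → IsSmallSet (Cm p) S → IsPreconnected Sᶜ →
    IsKahler w → (∃ y ∉ S, NDeg (p + d) p d r f y) →
    ∃ S' : Set Y, S ⊆ S' ∧ IsSmallSet (Cm p) S' ∧ ∀ y ∉ S', NDeg (p + d) p d r f y

/-- All the analytic inputs. -/
structure Inputs : Prop where
  c2 : C2Stmt
  f1 : F1Stmt
  d : DStmt
  e1 : E1Stmt
  flat : FlatStmt
  j : JStmt
  f2 : F2Stmt
  ab : ABStmt
  w : WStmt
  k : KStmt

/-- **ALB** (assembly): a proper fibration over `Y ∖ S` with Kähler total space and immersive Gauss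
maps is an Albanese family. -/
def AlbStmt : Prop :=
  ∀ (p d : ℕ) (Z Y : Type) [TopologicalSpace Z] [T2Space Z] [ChartedSpace (Cm (p + d)) Z]
    [IsManifold 𝓘(ℂ, Cm (p + d)) ω Z] [TopologicalSpace Y] [T2Space Y] [ChartedSpace (Cm p) Y]
    [IsManifold 𝓘(ℂ, Cm p) ω Y] (f : Z → Y) (S : Set Y)
    (w : Chart (p + d) Z → Cm (p + d) → Matrix (Fin (p + d)) (Fin (p + d)) ℂ), 0 < d →
    ContMDiff 𝓘(ℂ, Cm (p + d)) 𝓘(ℂ, Cm p) ω f →
    IsProperFibration (n := p + d) (p := p) f S → IsPreconnected Sᶜ → IsKahler w →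
    (∀ y ∉ S, NDeg (p + d) p d d f y) → Sᶜ.Nonempty →
    ∃ (g n : ℕ) (Q : (Fin n → ℝ) → (Fin n → ℝ) → ℝ) (ι : Type) (U : ι → Set Y)
      (π : ι → Y → ((Fin n → ℝ) ≃L[ℝ] EuclideanSpace ℂ (Fin g)))
      (α : ι → Z → EuclideanSpace ℂ (Fin g)),
      IsAlbaneseFamily (Cm (p + d)) (Cm p) d f S Q U π α

/-! ### Fibres -/

section
variable {d : ℕ} {F : Type} [TopologicalSpace F] [ChartedSpace (Cm d) F]

/-- `φ` is, near `x`, a primitive of a closed holomorphic 1-form `η` of `F` (`η` is locally the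
differential of a holomorphic function). -/
def IsPrim (φ : F → ℂ) (x : F) : Prop :=
  J.HolAt (Cm d) φ x ∧ ∃ η : F → (Cm d →L[ℂ] ℂ), (∀ᶠ z in 𝓝 x, η z = J.dif (Cm d) φ z) ∧
    ∀ x', ∃ ψ : F → ℂ, J.HolAt (Cm d) ψ x' ∧ ∀ᶠ z in 𝓝 x', η z = J.dif (Cm d) ψ z

/-- The coefficient of `dφ_1 ∧ ⋯ ∧ dφ_d` in the chart of `F` at `x`. -/
def coef (x : F) (φ : Fin d → F → ℂ) (v : Cm d) : ℂ :=
  (Matrix.of fun a b => fderiv ℂ (fun u => φ a ((chartAt (Cm d) x).symm u)) v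
    (Pi.single b 1)).det

/-- The Gauss map of `F`, given by the products `s = η_1 ∧ ⋯ ∧ η_d` of closed holomorphic 1-forms
(sections of `K_F`), has rank at least `r` at some point: there are `s_0, …, s_r` with `s_0 ≠ 0` and
`(s_1 / s_0, …, s_r / s_0)` submersive at `x`. -/
def GaussRank (d : ℕ) (F : Type) [TopologicalSpace F] [ChartedSpace (Cm d) F] (r : ℕ) : Prop :=
  ∃ (x : F) (φ : Fin (r + 1) → Fin d → F → ℂ), (∀ k a, IsPrim (d := d) (φ k a) x) ∧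
    coef x (φ 0) (chartAt (Cm d) x x) ≠ 0 ∧ Function.Surjective fun (ξ : Cm d) (k : Fin r) =>
      fderiv ℂ (fun v => coef x (φ k.succ) v / coef x (φ 0) v) (chartAt (Cm d) x x) ξ

end

/-- **FIB**: the fibre `F` itself. -/
def FibStmt : Prop :=
  ∀ (p d r : ℕ) (Z Y : Type) [TopologicalSpace Z] [T2Space Z] [ChartedSpace (Cm (p + d)) Z]
    [IsManifold 𝓘(ℂ, Cm (p + d)) ω Z] [TopologicalSpace Y] [T2Space Y] [ChartedSpace (Cm p) Y]
    [IsManifold 𝓘(ℂ, Cm p) ω Y] (f : Z → Y) (S : Set Y), 0 < d →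
    ContMDiff 𝓘(ℂ, Cm (p + d)) 𝓘(ℂ, Cm p) ω f →
    IsProperFibration (n := p + d) (p := p) f S → ABStmt →
    ∀ y ∉ S, ∀ (F : Type) [TopologicalSpace F] [ChartedSpace (Cm d) F] (i : F → Z),
      H511.Surf.IsFibre (Cm (p + d)) (Cm d) f y i → Function.Injective i → GaussRank d F r →
      NDeg (p + d) p d r f y

/-- **T-K**, the goal. -/
def TKStmt : Prop :=
  ∀ (p d : ℕ) (X Y : Type) [TopologicalSpace X] [ChartedSpace (Cm (p + d)) X]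
    [TopologicalSpace Y] [ChartedSpace (Cm p) Y] (f : X → Y) (Δ : Set X → ℝ), 0 < d →
    H511.Surf.IsFibration (Cm (p + d)) (Cm p) f Δ →
    (∃ w : Chart (p + d) X → Cm (p + d) → Matrix (Fin (p + d)) (Fin (p + d)) ℂ, IsKahler w) →
    ∃ H : ℕ → Set Y, (∀ k, IsThinSet (Cm p) (H k)) ∧ ∀ y, (∀ k, y ∉ H k) →
      ∀ (F : Type) [TopologicalSpace F] [ChartedSpace (Cm d) F] (i : F → X),
        H511.Surf.IsFibre (Cm (p + d)) (Cm d) f y i → Function.Injective i → GaussRank d F d →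
        (TZ.S.kodR (Cm (p + d)) (Cm d) i Δ + TZ.S.kodF (p + d) p Δ (id : X → X) f ≤
            TZ.S.kodX (Cm (p + d)) Δ ∧
          TZ.S.KapLe (Cm (p + d)) (Cm p) f Δ (TZ.S.kodF (p + d) p Δ (id : X → X) f)) ∧
        (NoExc (Cm (p + d)) (Cm p) f → H511.Surf.Q1 (Cm (p + d)) (Cm p) (Cm d) f Δ i)

end Vale.Agent.P281.H64.TK
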