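import Vale.Agent.P272.K.Stmt
import Vale.Agent.P281.H64.Defs

/-!
# P281, project T-K (helper64): the analytic interface, in dimension `d` (FROZEN)

Compact complex manifolds of dimension `d` and their families, given by sheets on the universal
covering `E` with its group `Γ`, and Kähler metrics on them. `Cm d = ℂ^d` has the sup norm.
-/

open Set Filter Metric MeasureTheory Vale.Agent.P272.K
open scoped Topology ContDiff ComplexConjugate ComplexOrder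

noncomputable section

namespace Vale.Agent.P281.H64.TK

/-- The complex derivative `∂h/∂z_k`. -/
def dd {d : ℕ} (k : Fin d) (h : Cm d → ℂ) (z : Cm d) : ℂ := fderiv ℂ h z (Pi.single k 1)

/-- The Jacobian matrix `(∂θ_l/∂z_k)_{l k}` of a holomorphic map. -/
def jac {d : ℕ} (θ : Cm d → Cm d) (z : Cm d) : Matrix (Fin d) (Fin d) ℂ :=
  Matrix.of fun l k => fderiv ℂ θ z (Pi.single k 1) l

/-- A compact complex manifold `E / Γ` of dimension `d`, given by finitely many sheets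
`σ i : ball(0,3) → E` of the covering `E → E / Γ`, with holomorphic transition maps, such that the
balls of radius `1` cover `E / Γ`. -/
structure Sheets (d : ℕ) (E Γ : Type) [TopologicalSpace E] [Group Γ] [MulAction Γ E] where
  N : ℕ
  σ : Fin N → Cm d → E
  map_nhds : ∀ i, ∀ z ∈ ball (0 : Cm d) 3, Filter.map (σ i) (𝓝 z) = 𝓝 (σ i z)
  inj : ∀ i, ∀ z ∈ ball (0 : Cm d) 3, ∀ w ∈ ball (0 : Cm d) 3, ∀ γ : Γ, γ • σ i z = σ i w →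
    γ = 1 ∧ z = w
  cover : ∀ e : E, ∃ (γ : Γ) (i : Fin N) (z : Cm d), ‖z‖ < 1 ∧ γ • σ i z = e
  closed : ∀ i, ∀ r : ℝ, r < 3 → IsClosed {e : E | ∃ (γ : Γ) (z : Cm d), ‖z‖ ≤ r ∧ γ • σ i z = e}
  hol : ∀ i j, ∀ z ∈ ball (0 : Cm d) 3, ∀ w ∈ ball (0 : Cm d) 3, ∀ γ : Γ, σ i z = γ • σ j w →
    ∃ θ : Cm d → Cm d, AnalyticAt ℂ θ z ∧ θ z = w ∧ ∀ᶠ u in 𝓝 z, σ i u = γ • σ j (θ u)

section
variable {d : ℕ} {E Γ : Type} [TopologicalSpace E] [Group Γ] [MulAction Γ E]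

/-- `u : E → ℂ` is smooth. -/
def Sheets.Smooth (S : Sheets d E Γ) (u : E → ℂ) : Prop :=
  ∀ (i : Fin S.N) (γ : Γ), ContDiffOn ℝ ∞ (fun z => u (γ • S.σ i z)) (ball 0 3)

/-- `h : E → ℂ` is holomorphic and additive, with periods `c`: `h (γ • e) = h e + c γ`. -/
structure Add (S : Sheets d E Γ) (h : E → ℂ) (c : Γ → ℂ) : Prop where
  hol : ∀ i, DifferentiableOn ℂ (fun z => h (S.σ i z)) (ball 0 3)
  add : ∀ (γ : Γ) (e : E), h (γ • e) = h e + c γ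

/-- `w` is a smooth Kähler metric on `E / Γ` (coefficient matrix in each sheet). -/
structure Kah (S : Sheets d E Γ) (w : Fin S.N → Cm d → Matrix (Fin d) (Fin d) ℂ) : Prop where
  smooth : ∀ i j k, ContDiffOn ℝ ∞ (fun z => w i z j k) (ball 0 3)
  posDef : ∀ i, ∀ z ∈ ball (0 : Cm d) 3, (w i z).PosDef
  closed : ∀ i, ∀ z ∈ ball (0 : Cm d) 3, ∀ j k l,
    dz l (fun z => w i z j k) z = dz j (fun z => w i z l k) z
  change : ∀ i j, ∀ z ∈ ball (0 : Cm d) 3, ∀ z' ∈ ball (0 : Cm d) 3, ∀ (γ : Γ) (θ : Cm d → Cm d),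
    AnalyticAt ℂ θ z → θ z = z' → (∀ᶠ u in 𝓝 z, S.σ i u = γ • S.σ j (θ u)) →
      w i z = (jac θ z).transpose * w j z' * (jac θ z).map conj

/-- The part of the ball number `i` which is not covered by the previous ones: these sets form a
fundamental domain of `E / Γ`. -/
def Sheets.P (S : Sheets d E Γ) (i : Fin S.N) : Set (Cm d) :=
  {z | ‖z‖ < 1 ∧ ∀ j, j < i → ∀ (γ : Γ) (w : Cm d), ‖w‖ < 1 → γ • S.σ j w ≠ S.σ i z}

/-- The integral over `E / Γ` of the form of top degree with density `D i` in the sheet `i`. -/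
def Sheets.int (S : Sheets d E Γ) (D : Fin S.N → Cm d → ℂ) : ℂ := ∑ i, ∫ z in S.P i, D i z

/-- `(const) ∫ i ∂h ∧ conj(∂h') ∧ w^(d-1)` for `h`, `h'` holomorphic and additive: the density is
`det w * Σ w^{j k̄} ∂_j h conj(∂_k h')`. -/
def Sheets.herm (S : Sheets d E Γ) (w : Fin S.N → Cm d → Matrix (Fin d) (Fin d) ℂ)
    (h h' : E → ℂ) : ℂ :=
  S.int fun i z => (w i z).det * ((w i z)⁻¹ * Matrix.of fun j k =>
    dd j (fun z => h (S.σ i z)) z * conj (dd k (fun z => h' (S.σ i z)) z)).trace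

/-- The Jacobian determinant `det (∂h_j/∂z_k)` of `h : E → ℂ^d` in the sheet `i`. -/
def Sheets.minor (S : Sheets d E Γ) (h : E → Cm d) (i : Fin S.N) (z : Cm d) : ℂ :=
  (Matrix.of fun j k => dd k (fun z => h (S.σ i z) j) z).det

/-- The manifolds `S`, `S'` (with the same topological covering) have the same smooth structure and
orientation. -/
def Compat (S S' : Sheets d E Γ) : Prop :=
  ∀ i j, ∀ z ∈ ball (0 : Cm d) 3, ∀ w ∈ ball (0 : Cm d) 3, ∀ γ : Γ, S.σ i z = γ • S'.σ j w →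
    ∃ ψ : Cm d → Cm d, ContDiffAt ℝ ∞ ψ z ∧ ψ z = w ∧ 0 < (fderiv ℝ ψ z).det ∧
      ∀ᶠ u in 𝓝 z, S.σ i u = γ • S'.σ j (ψ u)

/-- The manifolds `S`, `S'` have the same complex structure. -/
def HolCompat (S S' : Sheets d E Γ) : Prop :=
  ∀ i j, ∀ z ∈ ball (0 : Cm d) 3, ∀ w ∈ ball (0 : Cm d) 3, ∀ γ : Γ, S.σ i z = γ • S'.σ j w →
    ∃ θ : Cm d → Cm d, AnalyticAt ℂ θ z ∧ θ z = w ∧ (jac θ z).det ≠ 0 ∧
      ∀ᶠ u in 𝓝 z, S.σ i u = γ • S'.σ j (θ u)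

/-- The metrics `w` on `S` and `w'` on `S'` are the same. -/
def SameMetric (S S' : Sheets d E Γ) (w : Fin S.N → Cm d → Matrix (Fin d) (Fin d) ℂ)
    (w' : Fin S'.N → Cm d → Matrix (Fin d) (Fin d) ℂ) : Prop :=
  ∀ i j, ∀ z ∈ ball (0 : Cm d) 3, ∀ z' ∈ ball (0 : Cm d) 3, ∀ (γ : Γ) (θ : Cm d → Cm d),
    AnalyticAt ℂ θ z → θ z = z' → (∀ᶠ u in 𝓝 z, S.σ i u = γ • S'.σ j (θ u)) →
      w i z = (jac θ z).transpose * w' j z' * (jac θ z).map conj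

/-- `q : ball(v₀, r) → E` is holomorphic, and induces an injective map to `E / Γ`. -/
structure PolyIn (S : Sheets d E Γ) (q : Cm d → E) (v₀ : Cm d) (r : ℝ) : Prop where
  hol : ∀ v ∈ ball v₀ r, ∀ i, ∀ z ∈ ball (0 : Cm d) 3, ∀ γ : Γ, q v = γ • S.σ i z →
    ∃ θ : Cm d → Cm d, AnalyticAt ℂ θ v ∧ θ v = z ∧ ∀ᶠ u in 𝓝 v, q u = γ • S.σ i (θ u)
  inj : ∀ v ∈ ball v₀ r, ∀ v' ∈ ball v₀ r, ∀ γ : Γ, q v = γ • q v' → v = v'

/-- `F` is a basis of the holomorphic additive functions modulo constants, with periods `c`. -/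
structure IsBas (S : Sheets d E Γ) {g : ℕ} (F : E → Fin g → ℂ) (c : Γ → Fin g → ℂ) : Prop where
  add : ∀ j, Add S (fun e => F e j) (fun γ => c γ j)
  indep : ∀ s : Fin g → ℂ, (∀ γ, ∑ j, s j * c γ j = 0) → s = 0
  span : ∀ h b, Add S h b → ∃ s : Fin g → ℂ, ∀ γ, b γ = ∑ j, s j * c γ j

end

/-- A holomorphic family of compact complex manifolds of dimension `d` over the connected open set
`T` of `ℂ^p`, with a trivialisation of the universal coverings: `σ i t : ball(0,3) → E` are the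
sheets of the manifold number `t`. -/
structure Fam (p d : ℕ) (E Γ : Type) [TopologicalSpace E] [Group Γ] [MulAction Γ E] where
  T : Set (Cm p)
  isOpen : IsOpen T
  conn : IsPreconnected T
  N : ℕ
  σ : Fin N → Cm p → Cm d → E
  map_nhds : ∀ i, ∀ t ∈ T, ∀ z ∈ ball (0 : Cm d) 3,
    Filter.map (fun q : Cm p × Cm d => (q.1, σ i q.1 q.2)) (𝓝 (t, z)) = 𝓝 (t, σ i t z)
  map_nhds' : ∀ i, ∀ t ∈ T, ∀ z ∈ ball (0 : Cm d) 3, Filter.map (σ i t) (𝓝 z) = 𝓝 (σ i t z)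
  inj : ∀ i, ∀ t ∈ T, ∀ z ∈ ball (0 : Cm d) 3, ∀ w ∈ ball (0 : Cm d) 3, ∀ γ : Γ,
    γ • σ i t z = σ i t w → γ = 1 ∧ z = w
  cover : ∀ t ∈ T, ∀ e : E, ∃ (γ : Γ) (i : Fin N) (z : Cm d), ‖z‖ < 1 ∧ γ • σ i t z = e
  closed : ∀ i, ∀ t ∈ T, ∀ r : ℝ, r < 3 →
    IsClosed {e : E | ∃ (γ : Γ) (z : Cm d), ‖z‖ ≤ r ∧ γ • σ i t z = e}
  closed' : ∀ i, ∀ r : ℝ, r < 3 → ∀ t ∈ T, ∀ e : E,
    (∀ (γ : Γ) (z : Cm d), ‖z‖ ≤ r → γ • σ i t z ≠ e) →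
    ∀ᶠ q in 𝓝 (t, e), ∀ (γ : Γ) (z : Cm d), ‖z‖ ≤ r → γ • σ i q.1 z ≠ q.2
  hol : ∀ i j, ∀ t ∈ T, ∀ z ∈ ball (0 : Cm d) 3, ∀ w ∈ ball (0 : Cm d) 3, ∀ γ : Γ,
    σ i t z = γ • σ j t w → ∃ θ : Cm p × Cm d → Cm d, AnalyticAt ℂ θ (t, z) ∧ θ (t, z) = w ∧
      ∀ᶠ q in 𝓝 (t, z), σ i q.1 q.2 = γ • σ j q.1 (θ q)
  smooth : ∀ i j, ∀ t ∈ T, ∀ s ∈ T, ∀ z ∈ ball (0 : Cm d) 3, ∀ w ∈ ball (0 : Cm d) 3, ∀ γ : Γ,
    σ i t z = γ • σ j s w → ∃ ψ : Cm d → Cm d, ContDiffAt ℝ ∞ ψ z ∧ ψ z = w ∧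
      0 < (fderiv ℝ ψ z).det ∧ ∀ᶠ u in 𝓝 z, σ i t u = γ • σ j s (ψ u)

section
variable {p d : ℕ} {E Γ : Type} [TopologicalSpace E] [Group Γ] [MulAction Γ E]

/-- The manifold number `t`. -/
def Fam.at (𝓕 : Fam p d E Γ) (t : Cm p) (ht : t ∈ 𝓕.T) : Sheets d E Γ where
  N := 𝓕.N
  σ i := 𝓕.σ i t
  map_nhds i z hz := 𝓕.map_nhds' i t ht z hz
  inj i z hz w hw γ h := 𝓕.inj i t ht z hz w hw γ h
  cover e := 𝓕.cover t ht e
  closed i r hr := 𝓕.closed i t ht r hr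
  hol i j z hz w hw γ h := by
    obtain ⟨θ, h1, h2, h3⟩ := 𝓕.hol i j t ht z hz w hw γ h
    refine ⟨fun u => θ (t, u), ?_, h2, ?_⟩
    · exact AnalyticAt.comp' (f := fun u : Cm d => (t, u)) h1 (by fun_prop)
    · have : Tendsto (fun u : Cm d => (t, u)) (𝓝 z) (𝓝 (t, z)) :=
        (by fun_prop : Continuous fun u : Cm d => (t, u)).tendsto z
      exact this.eventually h3

theorem Fam.compat (𝓕 : Fam p d E Γ) (t s : Cm p) (ht : t ∈ 𝓕.T) (hs : s ∈ 𝓕.T) :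
    Compat (𝓕.at t ht) (𝓕.at s hs) :=
  fun i j z hz w hw γ h => 𝓕.smooth i j t ht s hs z hz w hw γ h

/-- The standard basis of `ℂ^p × ℂ^d`. -/
def bv (a : Fin p ⊕ Fin d) : Cm p × Cm d :=
  Sum.elim (fun k => (Pi.single k 1, 0)) (fun l => (0, Pi.single l 1)) a

/-- `∂/∂z_a = (∂/∂x_a - i ∂/∂y_a) / 2` on `ℂ^p × ℂ^d`. -/
def dzT (a : Fin p ⊕ Fin d) (f : Cm p × Cm d → ℂ) (q : Cm p × Cm d) : ℂ :=
  (fderiv ℝ f q (bv a) - Complex.I * fderiv ℝ f q (Complex.I • bv a)) / 2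

/-- The Jacobian matrix of `(t, z) ↦ (t, θ (t, z))`. -/
def jacT (θ : Cm p × Cm d → Cm d) (q : Cm p × Cm d) : Matrix (Fin p ⊕ Fin d) (Fin p ⊕ Fin d) ℂ :=
  Matrix.of fun a b => Sum.elim (fun k => (bv (d := d) b).1 k)
    (fun l => fderiv ℂ θ q (bv b) l) a

/-- `W` is a smooth closed real `(1,1)`-form on the total space of the family `𝓕`, positive definite
(a Kähler metric), given by its coefficient matrix in each sheet. -/
structure KFam (𝓕 : Fam p d E Γ)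
    (W : Fin 𝓕.N → Cm p × Cm d → Matrix (Fin p ⊕ Fin d) (Fin p ⊕ Fin d) ℂ) : Prop where
  smooth : ∀ i, ∀ t ∈ 𝓕.T, ∀ z ∈ ball (0 : Cm d) 3, ∀ a b,
    ContDiffAt ℝ ∞ (fun q => W i q a b) (t, z)
  posDef : ∀ i, ∀ t ∈ 𝓕.T, ∀ z ∈ ball (0 : Cm d) 3, (W i (t, z)).PosDef
  closed : ∀ i, ∀ t ∈ 𝓕.T, ∀ z ∈ ball (0 : Cm d) 3, ∀ a b c,
    dzT c (fun q => W i q a b) (t, z) = dzT a (fun q => W i q c b) (t, z)
  change : ∀ i j, ∀ t ∈ 𝓕.T, ∀ z ∈ ball (0 : Cm d) 3, ∀ z' ∈ ball (0 : Cm d) 3, ∀ (γ : Γ)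
    (θ : Cm p × Cm d → Cm d), AnalyticAt ℂ θ (t, z) → θ (t, z) = z' →
    (∀ᶠ q in 𝓝 (t, z), 𝓕.σ i q.1 q.2 = γ • 𝓕.σ j q.1 (θ q)) →
      W i (t, z) = (jacT θ (t, z)).transpose * W j (t, z') * (jacT θ (t, z)).map conj

/-- The metric on the manifold number `t`. -/
def fibW {𝓕 : Fam p d E Γ}
    (W : Fin 𝓕.N → Cm p × Cm d → Matrix (Fin p ⊕ Fin d) (Fin p ⊕ Fin d) ℂ) (t : Cm p)
    (i : Fin 𝓕.N) (z : Cm d) : Matrix (Fin d) (Fin d) ℂ :=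
  Matrix.of fun j k => W i (t, z) (Sum.inr j) (Sum.inr k)

end

end Vale.Agent.P281.H64.TK
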