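import Vale.Agent.P281.H64.TK.Defs
import Vale.Agent.P281.H713.DefsG

/-!
# P281, project T-K (helper64): statements of the analytic blocks (FROZEN)

All the statements are about `E`, `Γ` with
`[T2Space E] [SimplyConnectedSpace E] [ContinuousConstSMul Γ E]` and sheets `S : Sheets d E Γ` (one
compact manifold) or `𝓕 : Fam p d E Γ` (a family), `0 < d`, with a Kähler metric.
-/

open Set Filter Metric MeasureTheory Vale.Agent.P272.K
open scoped Topology ContDiff ComplexConjugate ComplexOrder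

noncomputable section

namespace Vale.Agent.P281.H64.TK

/-! ### Block C2: Hodge theory of one compact Kähler manifold -/

/-- **C2**: existence of holomorphic additive functions with given real periods, and uniqueness.
Proof: `u₀` smooth real additive with periods `a` (partition of unity); `v` smooth periodic with
`Δ v = -Δ u₀` for the Laplacian of `w` (`P272/K`, Fredholm alternative; `∫ Δ u₀ = 0` as `w` is
closed); then `u = u₀ + v` is additive and harmonic; `∫ |∂∂̄u|² = ∫ |Δu|²` (`w` closed), so `u` is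
pluriharmonic, `u = Re h`, `h` holomorphic on the simply connected `E`, additive. Uniqueness: maximum
principle. -/
def C2Stmt : Prop :=
  ∀ (d : ℕ) (E Γ : Type) [TopologicalSpace E] [T2Space E] [SimplyConnectedSpace E] [Group Γ]
    [MulAction Γ E] [ContinuousConstSMul Γ E] (S : Sheets d E Γ)
    (w : Fin S.N → Cm d → Matrix (Fin d) (Fin d) ℂ), 0 < d → Kah S w →
    (∀ a : Γ → ℝ, (∀ x y, a (x * y) = a x + a y) → ∃ (h : E → ℂ) (c : Γ → ℂ), Add S h c ∧
      ∀ γ, (c γ).re = a γ) ∧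
    ∀ (h : E → ℂ) (c : Γ → ℂ), Add S h c → (∀ γ, (c γ).re = 0) → ∀ e e', h e = h e'

/-! ### Block F1 -/

/-- **F1**: `Γ` is finitely generated, and `Γ^ab / torsion` has a basis. -/
def F1Stmt : Prop :=
  ∀ (d : ℕ) (E Γ : Type) [TopologicalSpace E] [T2Space E] [SimplyConnectedSpace E] [Group Γ]
    [MulAction Γ E] [ContinuousConstSMul Γ E] (_ : Sheets d E Γ), 0 < d →
    ∃ n, Nonempty (H64.Mark Γ n)

/-! ### Block D: holomorphic dependence on the parameter -/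

/-- **D**: near `t₀` there are bases of the additive functions which depend holomorphically on `t`
(as in dimension one: Montel on the sheets, maximum principle, Osgood; `C2Stmt` is the input). -/
def DStmt : Prop :=
  ∀ (p d : ℕ) (E Γ : Type) [TopologicalSpace E] [T2Space E] [SimplyConnectedSpace E] [Group Γ]
    [MulAction Γ E] [ContinuousConstSMul Γ E] (𝓕 : Fam p d E Γ)
    (W : Fin 𝓕.N → Cm p × Cm d → Matrix (Fin p ⊕ Fin d) (Fin p ⊕ Fin d) ℂ), 0 < d → KFam 𝓕 W →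
    ∀ (n : ℕ) (_ : H64.Mark Γ n),
    ∀ t₀ ∈ 𝓕.T, ∃ (g : ℕ) (T' : Set (Cm p)) (hT' : T' ⊆ 𝓕.T) (F : Cm p → E → Fin g → ℂ)
      (c : Cm p → Γ → Fin g → ℂ), n = 2 * g ∧ IsOpen T' ∧ t₀ ∈ T' ∧
      (∀ (t : Cm p) (ht : t ∈ T'), IsBas (𝓕.at t (hT' ht)) (F t) (c t)) ∧
      (∀ i, ∀ t ∈ T', ∀ z ∈ ball (0 : Cm d) 3, ∀ j,
        AnalyticAt ℂ (fun q : Cm p × Cm d => F q.1 (𝓕.σ i q.1 q.2) j) (t, z)) ∧
      ∀ γ j, ∀ t ∈ T', AnalyticAt ℂ (fun s => c s γ j) t

/-! ### Block E: the hermitian form -/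

/-- **E1**: `herm` is a Hermitian form, positive definite modulo constants; it does not depend on the
sheets (density `det w * |dh|²_w`, change of variables `|det jac|²`). -/
structure E1Concl {d : ℕ} {E Γ : Type} [TopologicalSpace E] [Group Γ] [MulAction Γ E]
    (S : Sheets d E Γ) (w : Fin S.N → Cm d → Matrix (Fin d) (Fin d) ℂ) : Prop where
  lin : ∀ {h₁ h₂ h' : E → ℂ} {c₁ c₂ c' : Γ → ℂ} (s : ℂ), Add S h₁ c₁ → Add S h₂ c₂ → Add S h' c' →
    S.herm w (fun e => s * h₁ e + h₂ e) h' = s * S.herm w h₁ h' + S.herm w h₂ h'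
  symm : ∀ {h h' : E → ℂ} {c c' : Γ → ℂ}, Add S h c → Add S h' c' →
    S.herm w h' h = conj (S.herm w h h')
  nonneg : ∀ {h : E → ℂ} {c : Γ → ℂ}, Add S h c → 0 ≤ (S.herm w h h).re
  pos : ∀ {h : E → ℂ} {c : Γ → ℂ}, Add S h c → S.herm w h h = 0 → ∀ γ, c γ = 0
  inv : ∀ {h h' : E → ℂ} {c c' : Γ → ℂ} (S' : Sheets d E Γ)
    (w' : Fin S'.N → Cm d → Matrix (Fin d) (Fin d) ℂ), Kah S' w' → HolCompat S S' →
    SameMetric S S' w w' → Add S h c → Add S h' c' → S'.herm w' h h' = S.herm w h h'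

def E1Stmt : Prop :=
  ∀ (d : ℕ) (E Γ : Type) [TopologicalSpace E] [T2Space E] [SimplyConnectedSpace E] [Group Γ]
    [MulAction Γ E] [ContinuousConstSMul Γ E] (S : Sheets d E Γ)
    (w : Fin S.N → Cm d → Matrix (Fin d) (Fin d) ℂ), 0 < d → Kah S w → E1Concl S w

/-- The form of the real periods, for the marking `M`, is `B`:
`Im herm h h' = Σ B_kl Re c(g_k) Re c'(g_l)`. -/
def HasForm {d : ℕ} {E Γ : Type} [TopologicalSpace E] [Group Γ] [MulAction Γ E]
    (S : Sheets d E Γ) (w : Fin S.N → Cm d → Matrix (Fin d) (Fin d) ℂ) {n : ℕ} (M : H64.Mark Γ n)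
    (B : Matrix (Fin n) (Fin n) ℝ) : Prop :=
  ∀ h c h' c', Add S h c → Add S h' c' →
    (S.herm w h h').im = ∑ k, ∑ l, B k l * (c (M.g k)).re * (c' (M.g l)).re

/-- **FLAT** (Stokes): in a family with a Kähler metric on the total space, the imaginary part of
`herm h h'`, i.e. (const) `∫ d(Re h) ∧ d(Re h') ∧ w^(d-1)`, is a bilinear form in the real periods,
which does not depend on the point of the (connected) base. -/
def FlatStmt : Prop :=
  ∀ (p d : ℕ) (E Γ : Type) [TopologicalSpace E] [T2Space E] [SimplyConnectedSpace E] [Group Γ]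
    [MulAction Γ E] [ContinuousConstSMul Γ E] (𝓕 : Fam p d E Γ)
    (W : Fin 𝓕.N → Cm p × Cm d → Matrix (Fin p ⊕ Fin d) (Fin p ⊕ Fin d) ℂ), 0 < d → KFam 𝓕 W →
    ∀ (n : ℕ) (M : H64.Mark Γ n), ∃ B : Matrix (Fin n) (Fin n) ℝ,
      ∀ (t : Cm p) (ht : t ∈ 𝓕.T), HasForm (𝓕.at t ht) (fibW W t) M B

/-! ### Block J: the volume form of the real periods -/

/-- `u : E → ℝ` is smooth and additive, with periods `a`. -/
structure SAdd {d : ℕ} {E Γ : Type} [TopologicalSpace E] [Group Γ] [MulAction Γ E]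
    (S : Sheets d E Γ) (u : E → ℝ) (a : Γ → ℝ) : Prop where
  smooth : ∀ i, ContDiffOn ℝ ∞ (fun z => u (S.σ i z)) (ball 0 3)
  add : ∀ (γ : Γ) (e : E), u (γ • e) = u e + a γ

/-- The real coordinate vectors of `ℂ^d`: `∂/∂x_k`, `∂/∂y_k`. -/
def rv {d : ℕ} (b : Fin d ⊕ Fin d) : Cm d :=
  Sum.elim (fun k => Pi.single k 1) (fun k => Pi.single k Complex.I) b

/-- The density of `du_1 ∧ ⋯ ∧ du_2d` in the sheet `i` (a real Jacobian determinant). -/
def Sheets.jacR {d : ℕ} {E Γ : Type} [TopologicalSpace E] [Group Γ] [MulAction Γ E]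
    (S : Sheets d E Γ) (u : Fin d ⊕ Fin d → E → ℝ) (i : Fin S.N) (z : Cm d) : ℝ :=
  (Matrix.of fun a b => fderiv ℝ (fun z => u a (S.σ i z)) z (rv b)).det

/-- `∫ du_1 ∧ ⋯ ∧ du_2d`, for smooth additive functions, is the form `J` of the periods. -/
def HasJac {d : ℕ} {E Γ : Type} [TopologicalSpace E] [Group Γ] [MulAction Γ E]
    (S : Sheets d E Γ) {n : ℕ} (M : H64.Mark Γ n) (J : (Fin d ⊕ Fin d → Fin n) → ℝ) : Prop :=
  ∀ (u : Fin d ⊕ Fin d → E → ℝ) (a : Fin d ⊕ Fin d → Γ → ℝ), (∀ k, SAdd S (u k) (a k)) →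
    ∑ i, ∫ z in S.P i, S.jacR u i z = ∑ K : Fin d ⊕ Fin d → Fin n, J K * ∏ k, a k (M.g (K k))

/-- **J** (Stokes): `∫ du_1 ∧ ⋯ ∧ du_2d` is an alternating multilinear form in the periods, which
depends only on the smooth structure and the orientation. Proof: a smooth additive `u` is
`Σ a(g_l) φ_l +` (periodic), `φ_l` smooth additive with periods `M.φ l` (partition of unity); the
integral is multilinear, and `0` if one of the functions is periodic (Piola, compact supports);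
`J K = ∫ dφ_{K 1} ∧ ⋯`. -/
def JStmt : Prop :=
  ∀ (d : ℕ) (E Γ : Type) [TopologicalSpace E] [T2Space E] [SimplyConnectedSpace E] [Group Γ]
    [MulAction Γ E] [ContinuousConstSMul Γ E] (S : Sheets d E Γ) (n : ℕ) (M : H64.Mark Γ n),
    0 < d → ∃ J : (Fin d ⊕ Fin d → Fin n) → ℝ,
      (∀ (τ : Equiv.Perm (Fin d ⊕ Fin d)) K, J (K ∘ τ) = (Equiv.Perm.sign τ : ℤ) * J K) ∧
      ∀ S' : Sheets d E Γ, Compat S' S → HasJac S' M J

/-! ### Block F2: linear algebra -/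

/-- The real linear map `x ↦ Σ x_k c(γ_k)`. -/
def perMap {Γ : Type} [Group Γ] {n g : ℕ} (M : H64.Mark Γ n) (c : Γ → Fin g → ℂ)
    (x : Fin n → ℝ) : EuclideanSpace ℂ (Fin g) :=
  WithLp.toLp 2 fun j => ∑ k, (x k : ℂ) * c (M.g k) j

/-- **F2** (from E1, J, C2): the periods form a lattice, polarized by the inverse of `B`, and the
volumes of the polydiscs are bounded by a constant which depends only on `B` and `J`. Proof of the
bound: for `H = G ∘ F`, `|minor m H|² ≤ d^d Σ_I |det (∂H_{I_a}/∂z_b)|²` (`I : Fin d → Fin g`), and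
`|det_ℂ|² = det_ℝ`, the density of `d(Re H_{I_1}) ∧ ⋯ ∧ d(Re H_{I_d}) ∧ d(Im H_{I_1}) ∧ ⋯`; so the
sum of the integrals over `E / Γ` is
`Σ_K J_K Π_a (Σ_j Re (H_j period)_{K(inl a)} Im (H_j period)_{K(inr a)})`, and as `J` is
alternating only the antisymmetric part of the last factors, which is `± B⁻¹ / 2`, contributes. -/
def F2Stmt : Prop :=
  (∀ (d : ℕ) (E Γ : Type) [TopologicalSpace E] [T2Space E] [SimplyConnectedSpace E] [Group Γ]
    [MulAction Γ E] [ContinuousConstSMul Γ E] (S : Sheets d E Γ)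
    (w : Fin S.N → Cm d → Matrix (Fin d) (Fin d) ℂ) (n g : ℕ) (M : H64.Mark Γ n)
    (B : Matrix (Fin n) (Fin n) ℝ) (F : E → Fin g → ℂ) (c : Γ → Fin g → ℂ), 0 < d → Kah S w →
    n = 2 * g → HasForm S w M B → IsBas S F c → IsUnit B.det ∧
    ∃ π : (Fin n → ℝ) ≃L[ℝ] EuclideanSpace ℂ (Fin g), (∀ x, π x = perMap M c x) ∧
      ∃ G : EuclideanSpace ℂ (Fin g) ≃L[ℂ] EuclideanSpace ℂ (Fin g), ∀ x x',
        (inner ℂ (G (π x)) (G (π x'))).im = ∑ k, ∑ l, B⁻¹ k l * x' k * x l) ∧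
  ∀ (d n g : ℕ) (B : Matrix (Fin n) (Fin n) ℝ) (J : (Fin d ⊕ Fin d → Fin n) → ℝ), 0 < d →
    (∀ (τ : Equiv.Perm (Fin d ⊕ Fin d)) K, J (K ∘ τ) = (Equiv.Perm.sign τ : ℤ) * J K) →
    ∃ A : NNReal, ∀ (E Γ : Type) [TopologicalSpace E] [T2Space E] [SimplyConnectedSpace E]
      [Group Γ] [MulAction Γ E] [ContinuousConstSMul Γ E] (S : Sheets d E Γ) (M : H64.Mark Γ n)
      (F : E → Fin g → ℂ) (c : Γ → Fin g → ℂ), HasJac S M J → IsBas S F c →
      ∀ π : (Fin n → ℝ) ≃L[ℝ] EuclideanSpace ℂ (Fin g), (∀ x, π x = perMap M c x) →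
      ∀ G : EuclideanSpace ℂ (Fin g) ≃L[ℂ] EuclideanSpace ℂ (Fin g), (∀ x x',
        (inner ℂ (G (π x)) (G (π x'))).im = ∑ k, ∑ l, B⁻¹ k l * x' k * x l) →
        ∀ (q : Cm d → E) (v₀ : Cm d) (r : ℝ), PolyIn S q v₀ r →
        ∀ m : Fin d → (EuclideanSpace ℂ (Fin g) →L[ℂ] ℂ), (∀ i, ‖m i‖ ≤ 1) →
          ∫⁻ v in ball v₀ r, ‖H713.minor m (fun u => G (WithLp.toLp 2 fun j => F (q u) j)) v‖ₑ ^ 2
            ≤ A

end Vale.Agent.P281.H64.TK
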