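import Vale.Agent.P281.H64.TK.Fin
import Vale.Agent.P281.H152.K.AB
import Vale.Agent.P281.H511.TK.FlatFin
import Vale.Agent.P281.H511.TT.Main
import Vale.Agent.P281.H603.Tor.Fam
import Vale.Agent.P281.H485.K.Uni
import Vale.Agent.P281.H485.K.F2
import Vale.Agent.P281.H760.TKod
import Vale.Agent.P281.H303.K.J
import Vale.Agent.P281.H125.KH.C2
import Vale.Agent.P281.H603.K.D
import Vale.Agent.P281.H603.K.F1
import Vale.Agent.P281.H864.K.E1
import Vale.Agent.P281.H386.K.W
import Vale.Agent.P281.H969.K.DegG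
import Vale.Agent.P281.H969.K.K
import Vale.Agent.P281.H125.Fib.Main
import Vale.Agent.P281.H125.Fib.Bas
import Vale.Agent.P281.H864.Toc.Toc

/-!
# P281, project T-K / T-T (helper64): the unconditional theorems
-/

namespace Vale.Agent.P281.H64.TK

/-- all the analytic inputs are proved -/
theorem inputs : Inputs where
  c2 := H125.KH.c2
  f1 := H603.K.f1
  d := H603.K.dStmt H125.KH.c2
  e1 := H864.K.e1
  flat := H511.TK.flatStmt
  j := H303.K.j
  f2 := H485.K.f2 H125.KH.c2 H864.K.e1
  ab := H152.K.ab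
  w := H386.K.wStmt
  k := H969.K.k

theorem degStmt : DegStmt := H969.K.deg_of_inputs inputs

theorem tocStmt : TocStmt :=
  H864.Toc.toc inputs.w inputs.k inputs.d inputs.f1 H125.Fib.tbas

theorem tkFin : TKStmt := tk inputs degStmt H125.Fib.fib

theorem ttFin : TTStmt :=
  H511.TT.tt inputs.ab degStmt tocStmt (H603.Tor.tfam inputs H485.K.tuni H125.Fib.tbas)
    H125.Fib.tfib H760.tkod

end Vale.Agent.P281.H64.TK
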