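import Vale.Agent.P281.H64.TK.Base

/-!
# P281, project T-K (helper64): the local data, with the same forms of the periods over `Y ∖ S`
-/

open Set Filter Metric MeasureTheory Vale.Agent.P281 Vale.Agent.P281.H713 Vale.Agent.P272.K
open scoped Topology ContDiff Manifold ComplexConjugate

set_option linter.unusedSectionVars false

noncomputable section

namespace Vale.Agent.P281.H64.TK

open H603.K H864.K

section
variable {d : ℕ} {E Γ : Type} [TopologicalSpace E] [Group Γ] [MulAction Γ E]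

theorem compat_trans {S₁ S₂ S₃ : Sheets d E Γ} (h : Compat S₁ S₂) (h' : Compat S₂ S₃) :
    Compat S₁ S₃ := by
  intro i j z hz w hw γ he
  obtain ⟨γ', k, v, hv, hek⟩ := S₂.cover (S₁.σ i z)
  have hv3 : v ∈ ball (0 : Cm d) 3 := Sh.mem3 hv
  obtain ⟨ψ, a1, a2, a3, a4⟩ := h i k z hz v hv3 γ' hek.symm
  obtain ⟨φ, b1, b2, b3, b4⟩ := h' k j v hv3 w hw (γ'⁻¹ * γ) (by
    rw [mul_smul, ← he, ← hek, inv_smul_smul])
  have ht : Tendsto ψ (𝓝 z) (𝓝 v) := by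
    have := a1.continuousAt.tendsto
    rwa [a2] at this
  refine ⟨fun u => φ (ψ u), ContDiffAt.comp z (by rw [a2]; exact b1) a1, by
    show φ (ψ z) = w
    rw [a2, b2], ?_, ?_⟩
  · have h1 : fderiv ℝ (fun u => φ (ψ u)) z = (fderiv ℝ φ (ψ z)).comp (fderiv ℝ ψ z) :=
      fderiv_comp z (by rw [a2]; exact b1.differentiableAt (by simp))
        (a1.differentiableAt (by simp))
    rw [h1, a2]
    have h2 : ((fderiv ℝ φ v).comp (fderiv ℝ ψ z)).det = (fderiv ℝ φ v).det * (fderiv ℝ ψ z).det :=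
      LinearMap.det_comp _ _
    rw [h2]
    exact mul_pos b3 a3
  · filter_upwards [a4, ht.eventually b4] with u c1 c2
    rw [c1, c2, ← mul_smul]
    congr 1
    group

/-- The forms of the periods, for the marking `M`, are `B` and `J`. -/
structure HasTop (S : Sheets d E Γ) (w : Fin S.N → Cm d → Matrix (Fin d) (Fin d) ℂ) {n : ℕ}
    (M : H64.Mark Γ n) (B : Matrix (Fin n) (Fin n) ℝ) (J : (Fin d ⊕ Fin d → Fin n) → ℝ) : Prop where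
  form : HasForm S w M B
  jac : ∀ S₁ : Sheets d E Γ, Compat S₁ S → HasJac S₁ M J

section transport
variable {E' Γ' : Type} [TopologicalSpace E'] [Group Γ'] [MulAction Γ' E']
  {S' : Sheets d E' Γ'} {τ : E ≃ₜ E'} {ρ : Γ ≃* Γ'} {hτ : ∀ γ e, τ (γ • e) = ρ γ • τ e}

theorem kah_pull {w : Fin S'.N → Cm d → Matrix (Fin d) (Fin d) ℂ} (h : Kah S' w) :
    Kah (S'.pull τ ρ hτ) w where
  smooth := h.smooth
  posDef := h.posDef
  closed := h.closed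
  change i j z hz z' hz' γ θ h1 h2 h3 := h.change i j z hz z' hz' (ρ γ) θ h1 h2 (by
    filter_upwards [h3] with u hu
    have h4 := congrArg τ hu
    have h5 : τ (τ.symm (S'.σ i u)) = τ (γ • τ.symm (S'.σ j (θ u))) := h4
    rw [hτ, τ.apply_symm_apply, τ.apply_symm_apply] at h5
    exact h5)

theorem compat_pull {S₁ : Sheets d E' Γ'} (h : Compat S₁ S') :
    Compat (S₁.pull τ ρ hτ) (S'.pull τ ρ hτ) := by
  intro i j z hz w hw γ he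
  have h4 : τ (τ.symm (S₁.σ i z)) = τ (γ • τ.symm (S'.σ j w)) := congrArg τ he
  rw [hτ, τ.apply_symm_apply, τ.apply_symm_apply] at h4
  obtain ⟨ψ, h1, h2, h3, h5⟩ := h i j z hz w hw (ρ γ) h4
  refine ⟨ψ, h1, h2, h3, ?_⟩
  filter_upwards [h5] with u hu
  apply τ.injective
  show τ (τ.symm (S₁.σ i u)) = τ (γ • τ.symm (S'.σ j (ψ u)))
  rw [hτ, τ.apply_symm_apply, τ.apply_symm_apply, hu]

theorem HasTop.transport [ContinuousConstSMul Γ E] {S : Sheets d E Γ}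
    {w : Fin S.N → Cm d → Matrix (Fin d) (Fin d) ℂ}
    {w' : Fin S'.N → Cm d → Matrix (Fin d) (Fin d) ℂ} (hE1 : E1Concl S w)
    (hw' : Kah S' w') (hc : HolCompat S (S'.pull τ ρ hτ))
    (hm : SameMetric S (S'.pull τ ρ hτ) w w') {n : ℕ}
    {M : H64.Mark Γ n} {B : Matrix (Fin n) (Fin n) ℝ} {J : (Fin d ⊕ Fin d → Fin n) → ℝ}
    (h : HasTop S w M B J) : HasTop S' w' (M.map ρ) B J where
  form := HasForm.transport (τ := τ) (hτ := hτ) hE1 (kah_pull hw') hc hm h.form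
  jac S₁ hS₁ := by
    have h1 : Compat (S₁.pull τ ρ hτ) S :=
      compat_trans (compat_pull hS₁) (compat_symm (holCompat_compat hc))
    intro u a hu
    have h2 := h.jac _ h1 (fun k e => u k (τ e)) (fun k γ => a k (ρ γ))
      (fun k => (hu k).pull (hτ := hτ))
    have h3 : ∑ i : Fin S₁.N, ∫ z in (S₁.pull τ ρ hτ).P i,
        (S₁.pull τ ρ hτ).jacR (fun k e => u k (τ e)) i z =
        ∑ i : Fin S₁.N, ∫ z in S₁.P i, S₁.jacR u i z := by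
      refine Finset.sum_congr rfl fun i _ => ?_
      rw [P_pull i]
      refine congrArg _ (funext fun z => ?_)
      exact jacR_pull u i z
    exact h3.symm.trans h2

end transport

end

/-- Local data over an open set of `Y`. -/
structure Loc {n p d : ℕ} {Z Y : Type} [TopologicalSpace Z] [ChartedSpace (Cm n) Z]
    [TopologicalSpace Y] [ChartedSpace (Cm p) Y] (f : Z → Y)
    (w : Chart n Z → Cm n → Matrix (Fin n) (Fin n) ℂ) {m : ℕ}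
    (B : Matrix (Fin m) (Fin m) ℝ) (J : (Fin d ⊕ Fin d → Fin m) → ℝ) where
  E : Type
  Γ : Type
  [tE : TopologicalSpace E]
  [t2 : T2Space E]
  [sc : SimplyConnectedSpace E]
  [gr : Group Γ]
  [act : MulAction Γ E]
  [ct : ContinuousConstSMul Γ E]
  𝓕 : Fam p d E Γ
  q : Cm p → E → Z
  χ : OpenPartialHomeomorph Y (Cm p)
  model : Model (n := n) f 𝓕 χ q
  W : Fin 𝓕.N → Cm p × Cm d → Matrix (Fin p ⊕ Fin d) (Fin p ⊕ Fin d) ℂ
  pull : IsPull w 𝓕 q W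
  kfam : KFam 𝓕 W
  M : H64.Mark Γ m
  top : ∀ t (ht : t ∈ 𝓕.T), HasTop (𝓕.at t ht) (fibW W t) M B J

attribute [instance] Loc.tE Loc.t2 Loc.sc Loc.gr Loc.act Loc.ct

section
variable {E Γ : Type} [TopologicalSpace E] [T2Space E] [SimplyConnectedSpace E] [Group Γ]
  [MulAction Γ E] [ContinuousConstSMul Γ E]

/-- the forms do not depend on the point of the family -/
theorem HasTop.move (I : Inputs) {p d : ℕ} (hd : 0 < d) {𝓕 : Fam p d E Γ}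
    {W : Fin 𝓕.N → Cm p × Cm d → Matrix (Fin p ⊕ Fin d) (Fin p ⊕ Fin d) ℂ} (hW : KFam 𝓕 W) {n : ℕ}
    {M : H64.Mark Γ n} {B : Matrix (Fin n) (Fin n) ℝ} {J : (Fin d ⊕ Fin d → Fin n) → ℝ}
    {t s : Cm p} {ht : t ∈ 𝓕.T} (hs : s ∈ 𝓕.T)
    (h : HasTop (𝓕.at t ht) (fibW W t) M B J) : HasTop (𝓕.at s hs) (fibW W s) M B J where
  form := by
    obtain ⟨B', hB'⟩ := I.flat p d E Γ 𝓕 W hd hW n M
    rw [h.form.unique (I.c2 d E Γ (𝓕.at t ht) _ hd (kah_fib hW ht)).1 (hB' t ht)]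
    exact hB' s hs
  jac S₁ hS₁ := h.jac S₁ (compat_trans hS₁ (𝓕.compat s t hs ht))

end

section
variable {p d : ℕ} {Z Y : Type} [TopologicalSpace Z] [T2Space Z] [ChartedSpace (Cm (p + d)) Z]
  [IsManifold 𝓘(ℂ, Cm (p + d)) ω Z] [TopologicalSpace Y] [T2Space Y] [ChartedSpace (Cm p) Y]
  [IsManifold 𝓘(ℂ, Cm p) ω Y]

/-- comparison of two models at the same point -/
theorem compareK (I : Inputs) (hd : 0 < d) {f : Z → Y}
    (hf : ContMDiff 𝓘(ℂ, Cm (p + d)) 𝓘(ℂ, Cm p) ω f)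
    {w : Chart (p + d) Z → Cm (p + d) → Matrix (Fin (p + d)) (Fin (p + d)) ℂ} (hw : IsKahler w)
    {E Γ : Type} [TopologicalSpace E] [T2Space E] [SimplyConnectedSpace E]
    [Group Γ] [MulAction Γ E] [ContinuousConstSMul Γ E] {𝓕 : Fam p d E Γ}
    {q : Cm p → E → Z} {χ : OpenPartialHomeomorph Y (Cm p)}
    {E' Γ' : Type} [TopologicalSpace E'] [T2Space E'] [SimplyConnectedSpace E']
    [Group Γ'] [MulAction Γ' E'] [ContinuousConstSMul Γ' E'] {𝓕' : Fam p d E' Γ'}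
    {q' : Cm p → E' → Z} {χ' : OpenPartialHomeomorph Y (Cm p)}
    (hM : Model (n := p + d) f 𝓕 χ q) (hM' : Model (n := p + d) f 𝓕' χ' q')
    {W : Fin 𝓕.N → Cm p × Cm d → Matrix (Fin p ⊕ Fin d) (Fin p ⊕ Fin d) ℂ}
    {W' : Fin 𝓕'.N → Cm p × Cm d → Matrix (Fin p ⊕ Fin d) (Fin p ⊕ Fin d) ℂ}
    (hW : IsPull w 𝓕 q W) (hW' : IsPull w 𝓕' q' W')
    {t t' : Cm p} (ht : t ∈ 𝓕.T) (ht' : t' ∈ 𝓕'.T) (hy : χ.symm t = χ'.symm t') :
    ∃ (τ : E ≃ₜ E') (ρ : Γ ≃* Γ') (hτ : ∀ γ e, τ (γ • e) = ρ γ • τ e),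
      (∀ e, q' t' (τ e) = q t e) ∧ HolCompat (𝓕.at t ht) ((𝓕'.at t' ht').pull τ ρ hτ) ∧
      SameMetric (𝓕.at t ht) ((𝓕'.at t' ht').pull τ ρ hτ) (fibW W t) (fibW W' t') := by
  obtain ⟨τ, ρ, hτ, hq, hol, hmet⟩ := I.k p d Z Y f w E Γ 𝓕 q χ E' Γ' 𝓕' q' χ' W W' hd hf hM hM'
    hw hW hW' t ht t' ht' hy
  refine ⟨τ, ρ, hτ, hq, fun i j z hz v hv γ he => ?_, fun i j z hz v hv γ θ h1 h2 h3 => ?_⟩
  · have he' : τ (𝓕.σ i t z) = ρ γ • 𝓕'.σ j t' v := by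
      have h1 : τ (𝓕.σ i t z) = τ (γ • τ.symm (𝓕'.σ j t' v)) := congrArg τ he
      rw [hτ, τ.apply_symm_apply] at h1
      exact h1
    obtain ⟨θ, h1, h2, h3, h4⟩ := hol i j z hz v hv (ρ γ) he'
    refine ⟨θ, h1, h2, h3, ?_⟩
    filter_upwards [h4] with u hu
    apply τ.injective
    show τ (𝓕.σ i t u) = τ (γ • τ.symm (𝓕'.σ j t' (θ u)))
    rw [hτ, τ.apply_symm_apply, hu]
  · refine hmet i j z hz v hv (ρ γ) θ h1 h2 ?_
    filter_upwards [h3] with u hu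
    have h4 : τ (𝓕.σ i t u) = τ (γ • τ.symm (𝓕'.σ j t' (θ u))) := congrArg τ hu
    rw [hτ, τ.apply_symm_apply] at h4
    exact h4

/-- some model at `y` has a marking with forms `B`, `J` -/
def PP (f : Z → Y) (w : Chart (p + d) Z → Cm (p + d) → Matrix (Fin (p + d)) (Fin (p + d)) ℂ)
    {n : ℕ} (B : Matrix (Fin n) (Fin n) ℝ) (J : (Fin d ⊕ Fin d → Fin n) → ℝ) (y : Y) : Prop :=
  ∃ (E Γ : Type) (_ : TopologicalSpace E) (_ : T2Space E) (_ : SimplyConnectedSpace E)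
    (_ : Group Γ) (_ : MulAction Γ E) (_ : ContinuousConstSMul Γ E) (𝓕 : Fam p d E Γ)
    (q : Cm p → E → Z) (χ : OpenPartialHomeomorph Y (Cm p)) (t : Cm p) (ht : t ∈ 𝓕.T)
    (W : Fin 𝓕.N → Cm p × Cm d → Matrix (Fin p ⊕ Fin d) (Fin p ⊕ Fin d) ℂ)
    (M : H64.Mark Γ n), Model (n := p + d) f 𝓕 χ q ∧ χ.symm t = y ∧ IsPull w 𝓕 q W ∧ KFam 𝓕 W ∧
      HasTop (𝓕.at t ht) (fibW W t) M B J

/-- then all the models at `y` have such a marking -/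
theorem PP.all (I : Inputs) (hd : 0 < d) {f : Z → Y}
    (hf : ContMDiff 𝓘(ℂ, Cm (p + d)) 𝓘(ℂ, Cm p) ω f)
    {w : Chart (p + d) Z → Cm (p + d) → Matrix (Fin (p + d)) (Fin (p + d)) ℂ} (hw : IsKahler w)
    {n : ℕ} {B : Matrix (Fin n) (Fin n) ℝ} {J : (Fin d ⊕ Fin d → Fin n) → ℝ} {y : Y}
    (h : PP f w B J y)
    {E' Γ' : Type} [TopologicalSpace E'] [T2Space E'] [SimplyConnectedSpace E']
    [Group Γ'] [MulAction Γ' E'] [ContinuousConstSMul Γ' E'] {𝓕' : Fam p d E' Γ'}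
    {q' : Cm p → E' → Z} {χ' : OpenPartialHomeomorph Y (Cm p)}
    (M' : Model (n := p + d) f 𝓕' χ' q')
    {W' : Fin 𝓕'.N → Cm p × Cm d → Matrix (Fin p ⊕ Fin d) (Fin p ⊕ Fin d) ℂ}
    (hW' : IsPull w 𝓕' q' W') (hK' : KFam 𝓕' W')
    {t' : Cm p} (ht' : t' ∈ 𝓕'.T) (hy : χ'.symm t' = y) :
    ∃ M₁ : H64.Mark Γ' n, HasTop (𝓕'.at t' ht') (fibW W' t') M₁ B J := by
  obtain ⟨E, Γ, _, _, _, _, _, _, 𝓕, q, χ, t, ht, W, M, hM, hy', hW, hK, hT⟩ := h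
  obtain ⟨τ, ρ, hτ, -, hc, hm⟩ := compareK I hd hf hw hM M' hW hW' ht ht' (by rw [hy, hy'])
  exact ⟨M.map ρ, hT.transport (I.e1 d E Γ _ _ hd (kah_fib hK ht)) (kah_fib hK' ht') hc hm⟩

/-- **the same forms everywhere** -/
theorem glob (I : Inputs) (hd : 0 < d) {f : Z → Y}
    (hf : ContMDiff 𝓘(ℂ, Cm (p + d)) 𝓘(ℂ, Cm p) ω f)
    {w : Chart (p + d) Z → Cm (p + d) → Matrix (Fin (p + d)) (Fin (p + d)) ℂ} (hw : IsKahler w)
    {S : Set Y} (hP : IsProperFibration (n := p + d) (p := p) f S) (hconn : IsPreconnected Sᶜ)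
    {y₁ : Y} (hy₁ : y₁ ∉ S) :
    ∃ (n : ℕ) (B : Matrix (Fin n) (Fin n) ℝ) (J : (Fin d ⊕ Fin d → Fin n) → ℝ),
      (∀ (τ : Equiv.Perm (Fin d ⊕ Fin d)) K, J (K ∘ τ) = (Equiv.Perm.sign τ : ℤ) * J K) ∧
      ∀ y₀ ∉ S, ∃ L : Loc (n := p + d) (p := p) f w B J,
      y₀ ∈ L.χ.source ∧ L.χ y₀ ∈ L.𝓕.T ∧ ∀ t ∈ L.𝓕.T, L.χ.symm t ∉ S := by
  have hAB := I.ab p d Z Y f S hd hf hP
  have hS := hP.isClosed
  -- the initial point
  obtain ⟨E₁, Γ₁, _, _, _, _, _, _, 𝓕₁, q₁, hM₁, ht₁, -⟩ := hAB y₁ hy₁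
  obtain ⟨W₁, hW₁, hK₁⟩ := I.w p d Z Y f w E₁ Γ₁ 𝓕₁ q₁ _ hf hM₁ hw
  obtain ⟨n, ⟨M₁⟩⟩ := I.f1 d E₁ Γ₁ (𝓕₁.at _ ht₁) hd
  obtain ⟨B, hB⟩ := I.flat p d E₁ Γ₁ 𝓕₁ W₁ hd hK₁ n M₁
  obtain ⟨J, hJalt, hJ⟩ := I.j d E₁ Γ₁ (𝓕₁.at _ ht₁) n M₁ hd
  have hP₁ : PP f w B J y₁ := ⟨E₁, Γ₁, inferInstance, inferInstance,
    inferInstance, inferInstance, inferInstance, inferInstance, 𝓕₁, q₁, _, _, ht₁, W₁, M₁, hM₁,
    (chartAt (Cm p) y₁).left_inv (mem_chart_source _ _), hW₁, hK₁, hB _ ht₁, hJ⟩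
  -- the key property
  have key : ∀ y₀ ∉ S, ∃ U ∈ 𝓝 y₀, ∀ y ∈ U, ∀ y' ∈ U, PP f w B J y → PP f w B J y' := by
    intro y₀ hy₀
    obtain ⟨E, Γ, _, _, _, _, _, _, 𝓕, q, hM, ht, -⟩ := hAB y₀ hy₀
    obtain ⟨W, hW, hK⟩ := I.w p d Z Y f w E Γ 𝓕 q _ hf hM hw
    set χ := chartAt (Cm p) y₀ with hχ
    have hU : χ.source ∩ χ ⁻¹' 𝓕.T ∈ 𝓝 y₀ :=
      (χ.isOpen_inter_preimage 𝓕.isOpen).mem_nhds ⟨mem_chart_source _ _, ht⟩
    refine ⟨_, hU, fun y hy y' hy' h => ?_⟩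
    obtain ⟨M, hMf⟩ := h.all I hd hf hw hM hW hK hy.2 (χ.left_inv hy.1)
    exact ⟨E, Γ, inferInstance, inferInstance, inferInstance, inferInstance, inferInstance,
      inferInstance, 𝓕, q, χ, χ y', hy'.2, W, M, hM, χ.left_inv hy'.1, hW, hK,
      hMf.move I hd hK hy'.2⟩
  have hall : ∀ y ∉ S, PP f w B J y := by
    -- two open sets
    set A : Set Y := {y | y ∉ S ∧ PP f w B J y} with hA
    set A' : Set Y := {y | y ∉ S ∧ ¬ PP f w B J y} with hA'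
    have hSo : IsOpen Sᶜ := hS.isOpen_compl
    have hAo : IsOpen A := by
      rw [isOpen_iff_mem_nhds]
      rintro y ⟨hy, hP⟩
      obtain ⟨U, hU, hUP⟩ := key y hy
      filter_upwards [hU, hSo.mem_nhds hy] with y' a b
      exact ⟨b, hUP y (mem_of_mem_nhds hU) y' a hP⟩
    have hAo' : IsOpen A' := by
      rw [isOpen_iff_mem_nhds]
      rintro y ⟨hy, hP⟩
      obtain ⟨U, hU, hUP⟩ := key y hy
      filter_upwards [hU, hSo.mem_nhds hy] with y' a b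
      exact ⟨b, fun h => hP (hUP y' a y (mem_of_mem_nhds hU) h)⟩
    intro y hy
    by_contra hcon
    obtain ⟨x, -, hx1, hx2⟩ := hconn A A' hAo hAo' (fun x hx => by
      by_cases h : PP f w B J x
      · exact Or.inl ⟨hx, h⟩
      · exact Or.inr ⟨hx, h⟩) ⟨y₁, hy₁, hy₁, hP₁⟩ ⟨y, hy, hy, hcon⟩
    exact hx2.2 hx1.2
  refine ⟨n, B, J, hJalt, fun y₀ hy₀ => ?_⟩
  obtain ⟨E, Γ, _, _, _, _, _, _, 𝓕, q, hM, ht, hT⟩ := hAB y₀ hy₀
  obtain ⟨W, hW, hK⟩ := I.w p d Z Y f w E Γ 𝓕 q _ hf hM hw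
  obtain ⟨M, hMf⟩ := (hall y₀ hy₀).all I hd hf hw hM hW hK ht
    ((chartAt (Cm p) y₀).left_inv (mem_chart_source _ _))
  exact ⟨{
    E := E
    Γ := Γ
    𝓕 := 𝓕
    q := q
    χ := chartAt (Cm p) y₀
    model := hM
    W := W
    pull := hW
    kfam := hK
    M := M
    top := fun t ht' => hMf.move I hd hK ht' }, mem_chart_source _ _, ht, hT⟩

/-- Local data, with a holomorphic basis `F t` of the additive functions, with periods `c t`. -/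
structure DLoc (f : Z → Y)
    (w : Chart (p + d) Z → Cm (p + d) → Matrix (Fin (p + d)) (Fin (p + d)) ℂ) {n : ℕ}
    (B : Matrix (Fin n) (Fin n) ℝ) (J : (Fin d ⊕ Fin d → Fin n) → ℝ) (g : ℕ) extends
    Loc (n := p + d) (p := p) f w B J where
  T' : Set (Cm p)
  hT' : T' ⊆ 𝓕.T
  isOpen' : IsOpen T'
  F : Cm p → E → Fin g → ℂ
  c : Cm p → Γ → Fin g → ℂ
  bas : ∀ (t : Cm p) (ht : t ∈ T'), IsBas (𝓕.at t (hT' ht)) (F t) (c t)
  holF : ∀ i, ∀ t ∈ T', ∀ z ∈ ball (0 : Cm d) 3, ∀ j,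
    AnalyticAt ℂ (fun q : Cm p × Cm d => F q.1 (𝓕.σ i q.1 q.2) j) (t, z)
  holc : ∀ γ j, ∀ t ∈ T', AnalyticAt ℂ (fun s => c s γ j) t

/-- `glob`, with holomorphic bases -/
theorem dglob (I : Inputs) (hd : 0 < d) {f : Z → Y}
    (hf : ContMDiff 𝓘(ℂ, Cm (p + d)) 𝓘(ℂ, Cm p) ω f)
    {w : Chart (p + d) Z → Cm (p + d) → Matrix (Fin (p + d)) (Fin (p + d)) ℂ} (hw : IsKahler w)
    {S : Set Y} (hP : IsProperFibration (n := p + d) (p := p) f S) (hconn : IsPreconnected Sᶜ)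
    {y₁ : Y} (hy₁ : y₁ ∉ S) :
    ∃ (n g : ℕ) (_ : n = 2 * g) (B : Matrix (Fin n) (Fin n) ℝ)
      (J : (Fin d ⊕ Fin d → Fin n) → ℝ),
      (∀ (τ : Equiv.Perm (Fin d ⊕ Fin d)) K, J (K ∘ τ) = (Equiv.Perm.sign τ : ℤ) * J K) ∧
      ∀ y₀ ∉ S, ∃ L : DLoc f w B J g,
      y₀ ∈ L.χ.source ∧ L.χ y₀ ∈ L.T' ∧ ∀ t ∈ L.T', L.χ.symm t ∉ S := by
  obtain ⟨n, B, J, hJ, h⟩ := glob I hd hf hw hP hconn hy₁
  obtain ⟨L₁, -, hL₁, -⟩ := h y₁ hy₁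
  obtain ⟨g, -, -, -, -, hn, -⟩ := I.d p d L₁.E L₁.Γ L₁.𝓕 L₁.W hd L₁.kfam n L₁.M _ hL₁
  refine ⟨n, g, hn, B, J, hJ, fun y₀ hy₀ => ?_⟩
  obtain ⟨L, hs, hT, hSS⟩ := h y₀ hy₀
  obtain ⟨g', T', hT', F, c, hn', ho, ht, hb, hF, hc⟩ :=
    I.d p d L.E L.Γ L.𝓕 L.W hd L.kfam n L.M _ hT
  obtain rfl : g' = g := by omega
  exact ⟨{ toLoc := L, T' := T', hT' := hT', isOpen' := ho, F := F, c := c, bas := hb,
           holF := hF, holc := hc }, hs, ht, fun t ht' => hSS t (hT' ht')⟩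

end

end Vale.Agent.P281.H64.TK
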