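import Vale.Agent.P281.H64.TK.SpecG
import Vale.Agent.P281.H64.G2d
import Vale.Agent.P281.H603.K.Base
import Vale.Agent.P281.H603.K.Fib
import Vale.Agent.P281.H864.K.Compat

/-!
# P281, project T-K (helper64): forms of the periods, transport
-/

open Set Filter Metric MeasureTheory Vale.Agent.P272.K
open scoped Topology ContDiff ComplexConjugate

set_option linter.unusedSectionVars false

noncomputable section

namespace Vale.Agent.P281.H64.TK

open H603.K H864.K

variable {d : ℕ} {E Γ : Type} [TopologicalSpace E] [Group Γ] [MulAction Γ E]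

theorem Add.analyticAt {S : Sheets d E Γ} {h : E → ℂ} {c : Γ → ℂ} (H : Add S h c) (γ : Γ)
    (i : Fin S.N) {z : Cm d} (hz : z ∈ ball (0 : Cm d) 3) :
    AnalyticAt ℂ (fun z => h (γ • S.σ i z)) z := add_analyticAt_smul H γ i hz

theorem Add.map_mul {S : Sheets d E Γ} {h : E → ℂ} {c : Γ → ℂ} (H : Add S h c) [Nonempty E]
    (a b : Γ) : c (a * b) = c a + c b := by
  obtain ⟨e⟩ := ‹Nonempty E›
  have h1 := H.add (a * b) e
  rw [mul_smul, H.add, H.add] at h1
  linear_combination -h1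

theorem Add.lin {S : Sheets d E Γ} {h h' : E → ℂ} {c c' : Γ → ℂ} (H : Add S h c)
    (H' : Add S h' c') (a : ℂ) : Add S (fun e => a * h e + h' e) (fun γ => a * c γ + c' γ) where
  hol i := ((H.hol i).const_mul a).add (H'.hol i)
  add γ e := by rw [H.add, H'.add]; ring

theorem Add.sum {S : Sheets d E Γ} {g : ℕ} {F : E → Fin g → ℂ} {c : Γ → Fin g → ℂ}
    (H : ∀ j, Add S (fun e => F e j) (fun γ => c γ j)) (s : Fin g → ℂ) :
    Add S (fun e => ∑ j, s j * F e j) (fun γ => ∑ j, s j * c γ j) where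
  hol i := DifferentiableOn.fun_sum fun j _ => ((H j).hol i).const_mul (s j)
  add γ e := by
    rw [← Finset.sum_add_distrib]
    refine Finset.sum_congr rfl fun j _ => ?_
    rw [(H j).add]
    ring

theorem Add.per_zero [Nonempty E] {S : Sheets d E Γ} {h : E → ℂ} {c : Γ → ℂ} (H : Add S h c)
    (hc : ∀ e e', h e = h e') (γ : Γ) : c γ = 0 := by
  obtain ⟨e⟩ := ‹Nonempty E›
  have h1 := H.add γ e
  rw [hc (γ • e) e] at h1
  simpa using h1

/-- two additive functions with the same periods differ by a constant -/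
theorem Add.diff_const {S : Sheets d E Γ} (hC2 : ∀ (h : E → ℂ) (c : Γ → ℂ), Add S h c →
    (∀ γ, (c γ).re = 0) → ∀ e e', h e = h e') {h h' : E → ℂ} {c : Γ → ℂ} (H : Add S h c)
    (H' : Add S h' c) (e e' : E) : h e - h' e = h e' - h' e' := by
  have h1 := H'.lin H (-1)
  have h2 := hC2 _ _ h1 (fun γ => by simp) e e'
  linear_combination h2

/-! ### The form of the real periods -/

/-- the matrix is unique, by the existence of functions with given real periods -/
theorem HasForm.unique {S : Sheets d E Γ} {w : Fin S.N → Cm d → Matrix (Fin d) (Fin d) ℂ} {n : ℕ}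
    {M : H64.Mark Γ n} {B B' : Matrix (Fin n) (Fin n) ℝ}
    (hC2 : ∀ a : Γ → ℝ, (∀ x y, a (x * y) = a x + a y) → ∃ (h : E → ℂ) (c : Γ → ℂ), Add S h c ∧
      ∀ γ, (c γ).re = a γ) (hB : HasForm S w M B) (hB' : HasForm S w M B') : B = B' := by
  ext k l
  obtain ⟨h, c, H, hc⟩ := hC2 _ (M.ext_hom (Pi.single k 1))
  obtain ⟨h', c', H', hc'⟩ := hC2 _ (M.ext_hom (Pi.single l 1))
  have h1 := hB h c h' c' H H'
  rw [hB' h c h' c' H H'] at h1
  simp only [hc, hc', M.ext_g] at h1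
  have h2 : ∀ C : Matrix (Fin n) (Fin n) ℝ, ∑ i, ∑ j, C i j * (Pi.single k 1 : Fin n → ℝ) i *
      (Pi.single l 1 : Fin n → ℝ) j = C k l := by
    intro C
    rw [Finset.sum_eq_single k, Finset.sum_eq_single l]
    · simp
    · intro j _ hj; simp [Pi.single_eq_of_ne hj]
    · simp
    · intro j _ hj; simp [Pi.single_eq_of_ne hj]
    · simp
  rw [h2, h2] at h1
  exact h1.symm

/-! ### Transport by a homeomorphism -/

section transport
variable {E' Γ' : Type} [TopologicalSpace E'] [Group Γ'] [MulAction Γ' E']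

/-- the sheets of `S'`, as sheets on `E` -/
def Sheets.pull (S' : Sheets d E' Γ') (τ : E ≃ₜ E') (ρ : Γ ≃* Γ')
    (hτ : ∀ γ e, τ (γ • e) = ρ γ • τ e) : Sheets d E Γ where
  N := S'.N
  σ i z := τ.symm (S'.σ i z)
  map_nhds i z hz := by
    have h1 : (fun z => τ.symm (S'.σ i z)) = τ.symm ∘ S'.σ i := rfl
    rw [h1, ← Filter.map_map, S'.map_nhds i z hz]
    exact τ.symm.map_nhds_eq _
  inj i z hz w hw γ h := by
    have h1 := congrArg τ h
    rw [hτ, τ.apply_symm_apply, τ.apply_symm_apply] at h1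
    obtain ⟨h2, h3⟩ := S'.inj i z hz w hw _ h1
    exact ⟨by rw [← ρ.map_one] at h2; exact ρ.injective h2, h3⟩
  cover e := by
    obtain ⟨γ, i, z, hz, he⟩ := S'.cover (τ e)
    refine ⟨ρ.symm γ, i, z, hz, ?_⟩
    apply τ.injective
    rw [hτ, τ.apply_symm_apply, ρ.apply_symm_apply, he]
  closed i r hr := by
    have h1 : {e : E | ∃ (γ : Γ) (z : Cm d), ‖z‖ ≤ r ∧ γ • τ.symm (S'.σ i z) = e} =
        τ ⁻¹' {e : E' | ∃ (γ : Γ') (z : Cm d), ‖z‖ ≤ r ∧ γ • S'.σ i z = e} := by
      ext e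
      constructor
      · rintro ⟨γ, z, hz, rfl⟩
        exact ⟨ρ γ, z, hz, by rw [hτ, τ.apply_symm_apply]⟩
      · rintro ⟨γ, z, hz, he⟩
        refine ⟨ρ.symm γ, z, hz, ?_⟩
        apply τ.injective
        rw [hτ, τ.apply_symm_apply, ρ.apply_symm_apply, he]
    rw [h1]
    exact (S'.closed i r hr).preimage τ.continuous
  hol i j z hz w hw γ h := by
    have h1 := congrArg τ h
    rw [hτ, τ.apply_symm_apply, τ.apply_symm_apply] at h1
    obtain ⟨θ, h2, h3, h4⟩ := S'.hol i j z hz w hw _ h1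
    refine ⟨θ, h2, h3, ?_⟩
    filter_upwards [h4] with u hu
    apply τ.injective
    rw [hτ, τ.apply_symm_apply, τ.apply_symm_apply, hu]

variable {S' : Sheets d E' Γ'} {τ : E ≃ₜ E'} {ρ : Γ ≃* Γ'} {hτ : ∀ γ e, τ (γ • e) = ρ γ • τ e}

theorem Add.pull {h : E' → ℂ} {c : Γ' → ℂ} (H : Add S' h c) :
    Add (S'.pull τ ρ hτ) (fun e => h (τ e)) (fun γ => c (ρ γ)) where
  hol i := by
    have h1 : (fun z => h (τ ((S'.pull τ ρ hτ).σ i z))) = fun z => h (S'.σ i z) := by
      funext z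
      show h (τ (τ.symm (S'.σ i z))) = _
      rw [τ.apply_symm_apply]
    rw [h1]
    exact H.hol i
  add γ e := by rw [hτ, H.add]

theorem Add.of_pull {h : E' → ℂ} {c : Γ → ℂ} (H : Add (S'.pull τ ρ hτ) (fun e => h (τ e)) c) :
    Add S' h (fun γ => c (ρ.symm γ)) where
  hol i := by
    have h1 : (fun z => h (τ ((S'.pull τ ρ hτ).σ i z))) = fun z => h (S'.σ i z) := by
      funext z
      show h (τ (τ.symm (S'.σ i z))) = _
      rw [τ.apply_symm_apply]
    have h2 := H.hol i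
    rw [h1] at h2
    exact h2
  add γ e := by
    have h1 := H.add (ρ.symm γ) (τ.symm e)
    simp only [hτ, τ.apply_symm_apply, ρ.apply_symm_apply] at h1
    exact h1

theorem SAdd.pull {h : E' → ℝ} {c : Γ' → ℝ} (H : SAdd S' h c) :
    SAdd (S'.pull τ ρ hτ) (fun e => h (τ e)) (fun γ => c (ρ γ)) where
  smooth i := by
    have h1 : (fun z => h (τ ((S'.pull τ ρ hτ).σ i z))) = fun z => h (S'.σ i z) := by
      funext z
      show h (τ (τ.symm (S'.σ i z))) = _
      rw [τ.apply_symm_apply]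
    rw [h1]
    exact H.smooth i
  add γ e := by rw [hτ, H.add]

theorem P_pull (i : Fin S'.N) : (S'.pull τ ρ hτ).P i = S'.P i := by
  ext z
  constructor
  · rintro ⟨h1, h2⟩
    refine ⟨h1, fun j hj γ w hw h3 => h2 j hj (ρ.symm γ) w hw ?_⟩
    apply τ.injective
    show τ (ρ.symm γ • τ.symm (S'.σ j w)) = τ (τ.symm (S'.σ i z))
    rw [hτ, τ.apply_symm_apply, ρ.apply_symm_apply, τ.apply_symm_apply, h3]
  · rintro ⟨h1, h2⟩
    refine ⟨h1, fun j hj γ w hw h3 => h2 j hj (ρ γ) w hw ?_⟩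
    have h4 : τ (γ • τ.symm (S'.σ j w)) = τ (τ.symm (S'.σ i z)) := congrArg τ h3
    rwa [hτ, τ.apply_symm_apply, τ.apply_symm_apply] at h4

theorem herm_pull (w : Fin S'.N → Cm d → Matrix (Fin d) (Fin d) ℂ) (h h' : E' → ℂ) :
    (S'.pull τ ρ hτ).herm w (fun e => h (τ e)) (fun e => h' (τ e)) = S'.herm w h h' := by
  have hσ : ∀ (u : E' → ℂ) (i : Fin S'.N), (fun z => u (τ ((S'.pull τ ρ hτ).σ i z))) =
      fun z => u (S'.σ i z) := by
    intro u i
    funext z
    show u (τ (τ.symm (S'.σ i z))) = _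
    rw [τ.apply_symm_apply]
  show ∑ i : Fin S'.N, _ = ∑ i : Fin S'.N, _
  refine Finset.sum_congr rfl fun i _ => ?_
  rw [P_pull i]
  refine congrArg _ (funext fun z => ?_)
  have e1 := hσ h i
  have e2 := hσ h' i
  simp only [e1, e2]

theorem jacR_pull (u : Fin d ⊕ Fin d → E' → ℝ) (i : Fin S'.N) (z : Cm d) :
    (S'.pull τ ρ hτ).jacR (fun k e => u k (τ e)) i z = S'.jacR u i z := by
  have hσ : ∀ (k : Fin d ⊕ Fin d) (i : Fin S'.N),
      (fun z => u k (τ ((S'.pull τ ρ hτ).σ i z))) = fun z => u k (S'.σ i z) := by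
    intro k i
    funext z
    show u k (τ (τ.symm (S'.σ i z))) = _
    rw [τ.apply_symm_apply]
  simp only [Sheets.jacR, hσ]

/-- a smooth additive function, for compatible sheets -/
theorem SAdd.compat {S S' : Sheets d E Γ} (hS : Compat S S') {u : E → ℝ} {a : Γ → ℝ}
    (H : SAdd S u a) : SAdd S' u a where
  smooth j := by
    intro w hw
    obtain ⟨γ, i, z, hz, he⟩ := S.cover (S'.σ j w)
    have hz3 : z ∈ ball (0 : Cm d) 3 := Sh.mem3 hz
    obtain ⟨ψ, h1, h2, -, h3⟩ := compat_symm hS j i w hw z hz3 γ he.symm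
    have h4 : ContDiffAt ℝ ∞ (fun z => u (S.σ i z)) (ψ w) := by
      rw [h2]
      exact (H.smooth i).contDiffAt (isOpen_ball.mem_nhds hz3)
    have h5 : ContDiffAt ℝ ∞ (fun v => u (S.σ i (ψ v)) + a γ) w :=
      (ContDiffAt.comp w h4 h1).add contDiffAt_const
    refine (h5.congr_of_eventuallyEq ?_).contDiffWithinAt
    filter_upwards [h3] with v hv
    rw [hv, H.add]
  add := H.add

/-- transport of the form of the periods -/
theorem HasForm.transport {S : Sheets d E Γ} {w : Fin S.N → Cm d → Matrix (Fin d) (Fin d) ℂ}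
    {w' : Fin S'.N → Cm d → Matrix (Fin d) (Fin d) ℂ} (hE1 : E1Concl S w)
    (hw' : Kah (S'.pull τ ρ hτ) w') (hc : HolCompat S (S'.pull τ ρ hτ))
    (hm : SameMetric S (S'.pull τ ρ hτ) w w') {n : ℕ}
    {M : H64.Mark Γ n} {B : Matrix (Fin n) (Fin n) ℝ} (h : HasForm S w M B)
    [ContinuousConstSMul Γ E] :
    HasForm S' w' (M.map ρ) B := by
  intro u c u' c' H H'
  have H1 : Add S (fun e => u (τ e)) (fun γ => c (ρ γ)) :=
    add_compat (holCompat_symm hc) (H.pull (hτ := hτ))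
  have H1' : Add S (fun e => u' (τ e)) (fun γ => c' (ρ γ)) :=
    add_compat (holCompat_symm hc) (H'.pull (hτ := hτ))
  have h1 := h _ _ _ _ H1 H1'
  rw [← hE1.inv _ _ hw' hc hm H1 H1', herm_pull] at h1
  exact h1

/-- transport of the volume form of the periods -/
theorem HasJac.transport {S : Sheets d E Γ} {n : ℕ} {M : H64.Mark Γ n}
    {J : (Fin d ⊕ Fin d → Fin n) → ℝ}
    (hJ : ∀ S₁ : Sheets d E Γ, Compat S₁ S → HasJac S₁ M J) (hc : HolCompat S (S'.pull τ ρ hτ))
    [ContinuousConstSMul Γ E] : HasJac S' (M.map ρ) J := by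
  intro u a hu
  have h1 := hJ _ (compat_symm (holCompat_compat hc)) (fun k e => u k (τ e))
    (fun k γ => a k (ρ γ)) (fun k => (hu k).pull (hτ := hτ))
  have h2 : ∑ i : Fin S'.N, ∫ z in (S'.pull τ ρ hτ).P i,
      (S'.pull τ ρ hτ).jacR (fun k e => u k (τ e)) i z =
      ∑ i : Fin S'.N, ∫ z in S'.P i, S'.jacR u i z := by
    refine Finset.sum_congr rfl fun i _ => ?_
    rw [P_pull i]
    refine congrArg _ (funext fun z => ?_)
    exact jacR_pull u i z
  exact h2.symm.trans h1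

end transport

end Vale.Agent.P281.H64.TK
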