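import Vale.Agent.P281.H64.TK.G2e
import Vale.Agent.P281.H64.Gen.TV
import Vale.Agent.P281.H303.Gen.Irr
import Vale.Agent.P281.H713.GNC4

/-!
# P281, project T-K (helper64): the final theorem for fibres with immersive Gauss map
-/

open Set Filter Metric Module Vale.Agent.P281 Vale.Agent.P272.K
open Vale.Agent.P281.MF Vale.Agent.P281.ISO Vale.Agent.P281.ELL Vale.Agent.P281.H713
open Vale.Agent.P281.H713.TZ Vale.Agent.P281.H713.TZ.S Vale.Agent.P281.H64.Gen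
open Vale.Agent.P281.H64.Thin (IsThinSet)
open scoped Topology ContDiff Manifold

set_option linter.all false

noncomputable section

namespace Vale.Agent.P281.H64.TK

/-- **fibrations with nondegenerate maps to tori**, over the complement of a small set -/
theorem main_albG {n p d : ℕ} {X Z Y F : Type} [TopologicalSpace X] [T2Space X]
    [ConnectedSpace X] [ChartedSpace (Cm n) X] [IsManifold 𝓘(ℂ, Cm n) ω X]
    [TopologicalSpace Z] [ChartedSpace (Cm n) Z]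
    [IsManifold 𝓘(ℂ, Cm n) ω Z] [TopologicalSpace Y] [T2Space Y] [ChartedSpace (Cm p) Y]
    [IsManifold 𝓘(ℂ, Cm p) ω Y]
    {E₀ : Type} [NormedAddCommGroup E₀] [NormedSpace ℂ E₀] [FiniteDimensional ℂ E₀]
    [TopologicalSpace F] [ChartedSpace E₀ F] [IsManifold 𝓘(ℂ, E₀) ω F]
    {V : Type} [NormedAddCommGroup V] [InnerProductSpace ℂ V] [FiniteDimensional ℂ V]
    (hn : n = p + d) (hd : 0 < d) (hE₀ : finrank ℂ E₀ = d)
    (j : Z → X) (hj : J.IsBigOpen (Cm n) j) (f : Z → Y)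
    (hf : ContMDiff 𝓘(ℂ, Cm n) 𝓘(ℂ, Cm p) ω f)
    (S : Set Y) (hS : IsSmallSet (Cm p) S)
    (Δ : Set X → ℝ) (hsnc : J.IsSNC (Cm n) Δ) (Δ' : Set Z → ℝ) (hsnc' : J.IsSNC (Cm n) Δ')
    (hΔ : J.IsRestriction j Δ Δ')
    {m : ℕ} {Q : (Fin m → ℝ) → (Fin m → ℝ) → ℝ} {ι : Type} {U : ι → Set Y}
    {π : ι → Y → ((Fin m → ℝ) ≃L[ℝ] V)} {α : ι → Z → V}
    (hC : IsAlbaneseFamily (Cm n) (Cm p) d f S Q U π α) (i : F → Z) :
    J.kod E₀ (fun (D : Set Z) p g => ∃ e, J.IsLocalEq (Cm n) D e (i p) ∧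
        ∀ᶠ q in 𝓝 p, g q = e (i q)) Δ' +
      TL.kodF (n := n) (p := p) Δ j f ≤
      J.kod (Cm n) (fun (D : Set X) z g => J.IsLocalEq (Cm n) D g z) Δ := by
  have hE : finrank ℂ (Cm n) = finrank ℂ (Cm p) + d := by rw [fr, fr, hn]
  rw [JB.kod_eq, JB.kod_eq]
  let e₀ : Cm n ≃L[ℂ] (Cm p × (Fin d → ℂ)) := ContinuousLinearEquiv.ofFinrankEq (by
    simp [fr, hn])
  have hs' := JB.snc hsnc'
  have hΔ0 : ∀ D, 0 ≤ Δ' D := fun D => (snc01 hs' D).1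
  have hfh : ∀ x, HolM (Cm n) (Cm p) f x := fun x => hf x
  refine kodF_add_le fun j₁ j₂ h₁ h₂ => ?_
  have hj₁ : j₁ ≤ d := by
    have := kodGE_le h₁
    rwa [hE₀] at this
  have hmain := kodGE_allG (r := d) hj hf hS (fun x hx => by
      obtain ⟨ζ, -, h1⟩ := hC.coord x hx
      exact surj_of_coord (E₀ := Fin d → ℂ) (by simp [fr, hn]) h1)
    e₀ hsnc hsnc' hΔ (fun y hy => hasForms_alb hC hd hfh e₀ hΔ0 hy) h₂
  exact kodGE_le_of hmain (by omega)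

/-- the existence of the small set -/
theorem exists_small (I : Inputs) (deg : DegStmt) (fib : FibStmt) {p d : ℕ} {X Y : Type}
    [TopologicalSpace X] [T2Space X] [CompactSpace X] [ConnectedSpace X]
    [ChartedSpace (Cm (p + d)) X] [IsManifold 𝓘(ℂ, Cm (p + d)) ω X] [TopologicalSpace Y]
    [T2Space Y] [ChartedSpace (Cm p) Y] [IsManifold 𝓘(ℂ, Cm p) ω Y] {f : X → Y} (hd : 0 < d)
    (hf : ContMDiff 𝓘(ℂ, Cm (p + d)) 𝓘(ℂ, Cm p) ω f) (hc : ∀ y, IsConnected (f ⁻¹' {y}))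
    {w : Chart (p + d) X → Cm (p + d) → Matrix (Fin (p + d)) (Fin (p + d)) ℂ}
    (hw : IsKahler w) (r : ℕ) : ∃ S : Set Y, IsSmallSet (Cm p) S ∧
      IsProperFibration (n := p + d) (p := p) f S ∧ IsPreconnected Sᶜ ∧
      ((∀ y ∉ S, NDeg (p + d) p d r f y) ∨ ∀ y ∉ S, ∀ (F : Type) [TopologicalSpace F]
        [ChartedSpace (Cm d) F] (i : F → X), H511.Surf.IsFibre (Cm (p + d)) (Cm d) f y i →
        Function.Injective i → ¬ GaussRank d F r) := by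
  obtain ⟨S₁, hS₁, hP⟩ := H364.crit H150.Gen.img (p + d) p X Y f hf hc
  have hsurj : Function.Surjective f := fun y => by
    obtain ⟨x, hx⟩ := (hc y).nonempty
    exact ⟨x, hx⟩
  haveI : PreconnectedSpace Y := by
    rw [preconnectedSpace_iff_univ, ← hsurj.range_eq]
    exact isPreconnected_range hf.continuous
  have hP₁ := hP S₁ subset_rfl hS₁.1
  have hpre := (H383.Gen.compl p Y S₁ hS₁).2
  by_cases h : ∃ y ∉ S₁, NDeg (p + d) p d r f y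
  · obtain ⟨S', hSS', hS', hN⟩ := deg p d r X Y f S₁ w hd hf hsurj hP₁ hS₁ hpre hw h
    exact ⟨S', hS', hP S' hSS' hS'.1, (H383.Gen.compl p Y S' hS').2, Or.inl hN⟩
  · refine ⟨S₁, hS₁, hP₁, hpre, Or.inr fun y hy F _ _ i hi hinj hG => h ⟨y, hy, ?_⟩⟩
    exact fib p d r X Y f S₁ hd hf hP₁ I.ab y hy F i hi hinj hG

/-- the part of the proof which is common to the two cases -/
theorem finish {p d : ℕ} {X Y : Type} [tX : TopologicalSpace X] [T2Space X] [CompactSpace X]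
    [ConnectedSpace X] [cX : ChartedSpace (Cm (p + d)) X] [IsManifold 𝓘(ℂ, Cm (p + d)) ω X]
    [tY : TopologicalSpace Y] [T2Space Y] [cY : ChartedSpace (Cm p) Y]
    [IsManifold 𝓘(ℂ, Cm p) ω Y] {f : X → Y}
    {Δ : Set X → ℝ} (hf : ContMDiff 𝓘(ℂ, Cm (p + d)) 𝓘(ℂ, Cm p) ω f)
    (hc : ∀ y, IsConnected (f ⁻¹' {y})) (hΔ : J.IsSNC (Cm (p + d)) Δ) {S : Set Y}
    (hP : IsProperFibration (n := p + d) (p := p) f S) {y : Y} (hy : y ∉ S)
    {F : Type} [TopologicalSpace F] [ChartedSpace (Cm d) F] {i : F → X}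
    (hi : H511.Surf.IsFibre (Cm (p + d)) (Cm d) f y i)
    (hfirst : TZ.S.kodR (Cm (p + d)) (Cm d) i Δ + TZ.S.kodF (p + d) p Δ (id : X → X) f ≤
      TZ.S.kodX (Cm (p + d)) Δ) :
    (TZ.S.kodR (Cm (p + d)) (Cm d) i Δ + TZ.S.kodF (p + d) p Δ (id : X → X) f ≤
            TZ.S.kodX (Cm (p + d)) Δ ∧
          TZ.S.KapLe (Cm (p + d)) (Cm p) f Δ (TZ.S.kodF (p + d) p Δ (id : X → X) f)) ∧
        (NoExc (Cm (p + d)) (Cm p) f → H511.Surf.Q1 (Cm (p + d)) (Cm p) (Cm d) f Δ i) := by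
  have hkap : TZ.S.KapLe (Cm (p + d)) (Cm p) f Δ (TZ.S.kodF (p + d) p Δ (id : X → X) f) := by
    refine OrbLe.kapLe ?_
    have hsub : ∃ z, Function.Surjective (mfderiv 𝓘(ℂ, Cm (p + d)) 𝓘(ℂ, Cm p) f z) := by
      have := hi.connected
      obtain ⟨t⟩ : Nonempty F := inferInstance
      exact ⟨i t, hP.submersive _ (by rw [hi.fibre]; exact hy)⟩
    intro Γ hΓ₁ hΓ₂ hΓ₃ hnc hmor
    rw [kodF_eq]
    exact H713.CO.comp_g H413.TZ.genPart hΔ isBigOpen_id hf hsub ⟨hΓ₁, hΓ₂, hΓ₃⟩ hnc hΔ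
      (isRestriction_id Δ) hmor
  refine ⟨⟨hfirst, hkap⟩, fun hN => ?_⟩
  refine le_trans ?_ hfirst
  obtain ⟨g1, g2, g3, g4, g5⟩ := H399.Gen.base H303.Gen.irr H969.Gen.fin
    (H364.crit H150.Gen.img) H383.Gen.compl (p + d) p X Y f Δ hf hc hΔ hN _ rfl
  have hk := (hkap _ g1 g2 g3 g4 g5).2
    ⟨X, Y, tX, tY, cX, cY, f, Δ⟩ X tX cX f Δ (Relation.EqvGen.refl _) rfl
  exact add_le_add le_rfl hk

/-- **T-K** -/
theorem tk (I : Inputs) (deg : DegStmt) (fib : FibStmt) : TKStmt := by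
  intro p d X Y _ _ _ _ f Δ hd hX hK
  obtain ⟨⟨_, _⟩, _, _, ⟨_, _⟩, hf, hc, hΔ⟩ := hX
  obtain ⟨w, hw⟩ := hK
  obtain ⟨S, hS, hP, hpre, hcase⟩ := exists_small I deg fib hd hf hc hw d
  have hS' := hS
  obtain ⟨-, H, hH, hSH⟩ := hS'
  refine ⟨H, hH, fun y hyH F _ _ i hi hinj hG => ?_⟩
  have hyS : y ∉ S := fun h => by
    obtain ⟨k, hk⟩ := mem_iUnion.1 (hSH h)
    exact hyH k hk
  rcases hcase with hN | hN
  · obtain ⟨g, m, Q, ι, U, π, α, hC⟩ := alb I p d X Y f S w hd hf hP hpre hw hN ⟨y, hyS⟩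
    have hM := hi.manifold
    refine finish hf hc hΔ hP hyS hi ?_
    rw [kodF_eq]
    exact main_albG rfl hd (by simp) id isBigOpen_id f hf S hS Δ hΔ Δ hΔ (isRestriction_id Δ) hC i
  · exact absurd hG (hN y hyS F i hi hinj)

end Vale.Agent.P281.H64.TK
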