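import Vale.Agent.P281.H64.TK.Glob

/-!
# P281, project T-K (helper64): the Albanese maps of the local data
-/

open Set Filter Metric MeasureTheory Vale.Agent.P281 Vale.Agent.P281.H713 Vale.Agent.P272.K
open scoped Topology ContDiff Manifold ComplexConjugate

set_option linter.unusedSectionVars false

noncomputable section

namespace Vale.Agent.P281.H64.TK

open H603.K H864.K

section
variable {d : ℕ} {E Γ : Type} [TopologicalSpace E] [Group Γ] [MulAction Γ E] {S : Sheets d E Γ}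
  {n g : ℕ} {M : H64.Mark Γ n} {F : E → Fin g → ℂ} {c : Γ → Fin g → ℂ}

theorem IsBas.per_eq [Nonempty E] (h : IsBas S F c) (γ : Γ) :
    WithLp.toLp 2 (c γ) = perMap M c fun k => (M.φ k γ : ℝ) := by
  rw [perMap]
  congr 1
  funext j
  have h1 := M.complex (c := fun γ => c γ j) (h.add j).map_mul γ
  rw [h1]
  refine Finset.sum_congr rfl fun k _ => ?_
  push_cast
  rfl

/-- the values at two equivalent points are congruent -/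
theorem IsBas.congr [Nonempty E] (h : IsBas S F c) {π : (Fin n → ℝ) ≃L[ℝ] EuclideanSpace ℂ (Fin g)}
    (hπ : ∀ x, π x = perMap M c x) (γ : Γ) (e : E) :
    IsCongr π (WithLp.toLp 2 (F e)) (WithLp.toLp 2 (F (γ • e))) := by
  refine ⟨fun k => M.φ k γ, ?_⟩
  rw [hπ, ← h.per_eq]
  rw [← WithLp.toLp_add]
  congr 1
  funext j
  exact (h.add j).add γ e

end


variable {p d : ℕ} {Z Y : Type} [TopologicalSpace Z] [T2Space Z] [ChartedSpace (Cm (p + d)) Z]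
  [IsManifold 𝓘(ℂ, Cm (p + d)) ω Z] [TopologicalSpace Y] [T2Space Y] [ChartedSpace (Cm p) Y]
  [IsManifold 𝓘(ℂ, Cm p) ω Y] {f : Z → Y}
  {w : Chart (p + d) Z → Cm (p + d) → Matrix (Fin (p + d)) (Fin (p + d)) ℂ} {n g : ℕ}
  {B : Matrix (Fin n) (Fin n) ℝ} {J : (Fin d ⊕ Fin d → Fin n) → ℝ}

namespace DLoc

variable (L : DLoc f w B J g)

/-- the open set of `Y` over which `L` describes `f` -/
def U : Set Y := L.χ.source ∩ L.χ ⁻¹' L.T'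

theorem isOpen_U : IsOpen L.U := L.χ.isOpen_inter_preimage L.isOpen'

theorem left_inv {y : Y} (hy : y ∈ L.U) : L.χ.symm (L.χ y) = y := L.χ.left_inv hy.1

theorem right_inv {t : Cm p} (ht : t ∈ L.T') : L.χ (L.χ.symm t) = t :=
  L.χ.right_inv (L.model.sub (L.hT' ht))

theorem symm_mem {t : Cm p} (ht : t ∈ L.T') : L.χ.symm t ∈ L.U :=
  ⟨L.χ.map_target (L.model.sub (L.hT' ht)), by
    show L.χ (L.χ.symm t) ∈ L.T'
    rw [L.right_inv ht]; exact ht⟩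

/-- the surface over `y` -/
abbrev sh {y : Y} (hy : y ∈ L.U) : Sheets d L.E L.Γ := L.𝓕.at (L.χ y) (L.hT' hy.2)

theorem exists_pt {x : Z} (hx : f x ∈ L.U) : ∃ e, L.q (L.χ (f x)) e = x :=
  L.model.surj x hx.1 (L.hT' hx.2)

open Classical in
/-- a point of `E` over `x` -/
def pt (x : Z) : L.E := if h : f x ∈ L.U then (L.exists_pt h).choose else Classical.arbitrary L.E

theorem q_pt {x : Z} (hx : f x ∈ L.U) : L.q (L.χ (f x)) (L.pt x) = x := by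
  rw [pt, dif_pos hx]
  exact (L.exists_pt hx).choose_spec

/-- the Abel-Jacobi map -/
def α (x : Z) : EuclideanSpace ℂ (Fin g) := WithLp.toLp 2 (L.F (L.χ (f x)) (L.pt x))

theorem contMDiffAt_χ {y : Y} (hy : y ∈ L.U) : ContMDiffAt 𝓘(ℂ, Cm p) 𝓘(ℂ, Cm p) ω L.χ y :=
  contMDiffAt_of_mem_maximalAtlas (IsManifold.subset_maximalAtlas L.model.atlas) hy.1

/-- coordinates near a point -/
theorem chart {x : Z} (hx : f x ∈ L.U) : ∃ (i : Fin L.𝓕.N) (z : Cm d) (ζ : Z → Cm d), ‖z‖ < 1 ∧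
    L.q (L.χ (f x)) (L.𝓕.σ i (L.χ (f x)) z) = x ∧ ContMDiffAt 𝓘(ℂ, Cm (p + d)) 𝓘(ℂ, Cm d) ω ζ x ∧
    ζ x = z ∧ ∀ᶠ x' in 𝓝 x, L.q (L.χ (f x')) (L.𝓕.σ i (L.χ (f x')) (ζ x')) = x' := by
  obtain ⟨γ, i, z, hz, he⟩ := L.𝓕.cover _ (L.hT' hx.2) (L.pt x)
  have h1 : L.q (L.χ (f x)) (L.𝓕.σ i (L.χ (f x)) z) = x := by
    conv_rhs => rw [← L.q_pt hx, ← he]
    exact (L.model.eq _ (L.hT' hx.2) _ _).2 ⟨γ, rfl⟩
  obtain ⟨ζ, h2, h3, h4⟩ := L.model.coord i _ (L.hT' hx.2) z (Sh.mem3 hz)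
  rw [h1] at h2 h3 h4
  exact ⟨i, z, ζ, hz, h1, h2, h3, h4⟩

theorem eventually_mem {x : Z} (hf : ContMDiff 𝓘(ℂ, Cm (p + d)) 𝓘(ℂ, Cm p) ω f) (hx : f x ∈ L.U) :
    ∀ᶠ x' in 𝓝 x, f x' ∈ L.U :=
  hf.continuous.continuousAt.eventually (L.isOpen_U.mem_nhds hx)

open Classical in
/-- the periods; the value outside `U` is irrelevant -/
def π (D : (Fin n → ℝ) ≃L[ℝ] EuclideanSpace ℂ (Fin g)) (y : Y) :
    (Fin n → ℝ) ≃L[ℝ] EuclideanSpace ℂ (Fin g) :=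
  if h : ∃ π : (Fin n → ℝ) ≃L[ℝ] EuclideanSpace ℂ (Fin g), ∀ x, π x = perMap L.M (L.c (L.χ y)) x
  then h.choose else D

theorem F2_at (hF2 : F2Stmt) (hd : 0 < d) (hn : n = 2 * g) {t : Cm p} (ht : t ∈ L.T') :
    IsUnit B.det ∧ ∃ π : (Fin n → ℝ) ≃L[ℝ] EuclideanSpace ℂ (Fin g),
      (∀ x, π x = perMap L.M (L.c t) x) ∧
      ∃ G : EuclideanSpace ℂ (Fin g) ≃L[ℂ] EuclideanSpace ℂ (Fin g), ∀ x x',
        (inner ℂ (G (π x)) (G (π x'))).im = Qf B x x' :=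
  hF2.1 d L.E L.Γ (L.𝓕.at t (L.hT' ht)) (fibW L.W t) n g L.M B (L.F t) (L.c t) hd
    (kah_fib L.kfam (L.hT' ht)) hn (L.top t (L.hT' ht)).form (L.bas t ht)

variable {L}

theorem π_spec (hF2 : F2Stmt) (hd : 0 < d) (hn : n = 2 * g) (D : (Fin n → ℝ) ≃L[ℝ] EuclideanSpace ℂ (Fin g))
    {y : Y} (hy : y ∈ L.U) (x : Fin n → ℝ) : L.π D y x = perMap L.M (L.c (L.χ y)) x := by
  have h : ∃ π : (Fin n → ℝ) ≃L[ℝ] EuclideanSpace ℂ (Fin g), ∀ x,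
      π x = perMap L.M (L.c (L.χ y)) x := by
    obtain ⟨-, π, h, -⟩ := L.F2_at hF2 hd hn hy.2
    exact ⟨π, h⟩
  rw [π, dif_pos h]
  exact h.choose_spec x

theorem π_eq (hF2 : F2Stmt) (hd : 0 < d) (hn : n = 2 * g) (D : (Fin n → ℝ) ≃L[ℝ] EuclideanSpace ℂ (Fin g))
    {y : Y} (hy : y ∈ L.U) {π' : (Fin n → ℝ) ≃L[ℝ] EuclideanSpace ℂ (Fin g)}
    (h : ∀ x, π' x = perMap L.M (L.c (L.χ y)) x) : L.π D y = π' := by
  ext1
  funext x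
  rw [π_spec hF2 hd hn D hy, h]

theorem polarized (hF2 : F2Stmt) (hd : 0 < d) (hn : n = 2 * g)
    (D : (Fin n → ℝ) ≃L[ℝ] EuclideanSpace ℂ (Fin g)) {y : Y} (hy : y ∈ L.U) :
    IsPolarized (Qf B) (L.π D y) := by
  obtain ⟨-, π', h, h'⟩ := L.F2_at hF2 hd hn hy.2
  rw [π_eq hF2 hd hn D hy h]
  exact h'

theorem hol_π (hF2 : F2Stmt) (hd : 0 < d) (hn : n = 2 * g)
    (D : (Fin n → ℝ) ≃L[ℝ] EuclideanSpace ℂ (Fin g)) (x : Fin n → ℝ) {y : Y} (hy : y ∈ L.U) :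
    ContMDiffAt 𝓘(ℂ, Cm p) 𝓘(ℂ, EuclideanSpace ℂ (Fin g)) ω (fun y => L.π D y x) y := by
  have h1 : (fun y => L.π D y x) =ᶠ[𝓝 y] fun y => perMap L.M (L.c (L.χ y)) x := by
    filter_upwards [L.isOpen_U.mem_nhds hy] with y' hy'
    exact π_spec hF2 hd hn D hy' x
  refine ContMDiffAt.congr_of_eventuallyEq ?_ h1
  have h2 : ContDiffAt ℂ ω (fun t => perMap L.M (L.c t) x) (L.χ y) := by
    have h3 : ContDiffAt ℂ ω (fun t : Cm p => (fun j : Fin g => ∑ k, (x k : ℂ) * L.c t (L.M.g k) j))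
        (L.χ y) := by
      rw [contDiffAt_pi]
      intro j
      refine ContDiffAt.sum fun k _ => ?_
      exact contDiffAt_const.mul (L.holc _ j _ hy.2).contDiffAt
    exact (PiLp.continuousLinearEquiv 2 ℂ (fun _ : Fin g => ℂ)).symm.contDiff.contDiffAt.comp _ h3
  exact h2.contMDiffAt.comp y (L.contMDiffAt_χ hy)

/-- the Abel-Jacobi map is holomorphic modulo the periods -/
theorem lift_aux (hf : ContMDiff 𝓘(ℂ, Cm (p + d)) 𝓘(ℂ, Cm p) ω f) {x : Z} (hx : f x ∈ L.U)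
    {i : Fin L.𝓕.N} {z : Cm d} {ζ : Z → Cm d} (hz : ‖z‖ < 1) (h3 : ContMDiffAt 𝓘(ℂ, Cm (p + d)) 𝓘(ℂ, Cm d) ω ζ x)
    (h4 : ζ x = z) : ContMDiffAt 𝓘(ℂ, Cm (p + d)) 𝓘(ℂ, EuclideanSpace ℂ (Fin g)) ω
      (fun x' => (WithLp.toLp 2 (L.F (L.χ (f x')) (L.𝓕.σ i (L.χ (f x')) (ζ x'))) :
        EuclideanSpace ℂ (Fin g))) x := by
  have h5 : ContDiffAt ℂ ω (fun r : Cm p × Cm d => (WithLp.toLp 2 (L.F r.1 (L.𝓕.σ i r.1 r.2)) :
      EuclideanSpace ℂ (Fin g))) (L.χ (f x), ζ x) := by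
    have h6 : ContDiffAt ℂ ω (fun r : Cm p × Cm d => L.F r.1 (L.𝓕.σ i r.1 r.2)) (L.χ (f x), ζ x) := by
      rw [contDiffAt_pi]
      intro j
      rw [h4]
      exact (L.holF i _ hx.2 z (Sh.mem3 hz) j).contDiffAt
    exact (PiLp.continuousLinearEquiv 2 ℂ (fun _ : Fin g => ℂ)).symm.contDiff.contDiffAt.comp _ h6
  have h7 : ContMDiffAt 𝓘(ℂ, Cm (p + d)) 𝓘(ℂ, Cm p) ω (fun x' => L.χ (f x')) x :=
    ContMDiffAt.comp x (g := L.χ) (f := f) (L.contMDiffAt_χ hx) (hf x)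
  have h8 : ContMDiffAt 𝓘(ℂ, Cm (p + d)) 𝓘(ℂ, Cm p × Cm d) ω (fun x' => (L.χ (f x'), ζ x')) x := by
    rw [modelWithCornersSelf_prod, ← chartedSpaceSelf_prod]
    exact h7.prodMk h3
  exact ContMDiffAt.comp x (g := fun r : Cm p × Cm d => (WithLp.toLp 2 (L.F r.1 (L.𝓕.σ i r.1 r.2)) :
      EuclideanSpace ℂ (Fin g))) (f := fun x' => (L.χ (f x'), ζ x')) h5.contMDiffAt h8

theorem congr_aux (hF2 : F2Stmt) (hd : 0 < d) (hn : n = 2 * g)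
    (D : (Fin n → ℝ) ≃L[ℝ] EuclideanSpace ℂ (Fin g)) {x : Z} (hx : f x ∈ L.U) {e : L.E}
    (he : L.q (L.χ (f x)) e = x) : IsCongr (L.π D (f x)) (L.α x)
      (WithLp.toLp 2 (L.F (L.χ (f x)) e)) := by
  obtain ⟨γ, hγ⟩ := (L.model.eq _ (L.hT' hx.2) (L.pt x) e).1 (by rw [L.q_pt hx, he])
  rw [← hγ]
  exact (L.bas _ hx.2).congr (π_spec hF2 hd hn D hx) γ _

theorem lift (hF2 : F2Stmt) (hd : 0 < d) (hn : n = 2 * g) (hf : ContMDiff 𝓘(ℂ, Cm (p + d)) 𝓘(ℂ, Cm p) ω f)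
    (D : (Fin n → ℝ) ≃L[ℝ] EuclideanSpace ℂ (Fin g)) {x : Z} (hx : f x ∈ L.U) :
    ∃ β : Z → EuclideanSpace ℂ (Fin g), ContMDiffAt 𝓘(ℂ, Cm (p + d)) 𝓘(ℂ, EuclideanSpace ℂ (Fin g)) ω β x ∧
      ∀ᶠ z in 𝓝 x, IsCongr (L.π D (f z)) (L.α z) (β z) := by
  obtain ⟨i, z, ζ, hz, h1, h2, h3, h4⟩ := L.chart hx
  refine ⟨_, lift_aux (i := i) hf hx hz h2 h3, ?_⟩
  filter_upwards [h4, L.eventually_mem hf hx] with x' a b
  exact congr_aux hF2 hd hn D b a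

/-- a fibre coordinate -/
theorem coord (hf : ContMDiff 𝓘(ℂ, Cm (p + d)) 𝓘(ℂ, Cm p) ω f) {x : Z} (hx : f x ∈ L.U) :
    ∃ ζ : Z → Cm d, IsFibreCoord (Cm (p + d)) (Cm p) f ζ x := by
  obtain ⟨i, z, ζ, hz, h1, h2, h3, h4⟩ := L.chart hx
  refine ⟨ζ, h2, fun ξ hξ hξ' => ?_⟩
  -- `Φ (χ (f x'), ζ x') = x'`
  set Φ : Cm p × Cm d → Z := fun r => L.q r.1 (L.𝓕.σ i r.1 r.2) with hΦ
  have hΦd : MDifferentiableAt 𝓘(ℂ, Cm p × Cm d) 𝓘(ℂ, Cm (p + d)) Φ (L.χ (f x), ζ x) := by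
    rw [h3]
    exact (L.model.hol i _ (L.hT' hx.2) z (Sh.mem3 hz)).mdifferentiableAt (by simp)
  have h7 : MDifferentiableAt 𝓘(ℂ, Cm (p + d)) 𝓘(ℂ, Cm p) (fun x' => L.χ (f x')) x :=
    (ContMDiffAt.comp x (g := L.χ) (f := f) (L.contMDiffAt_χ hx) (hf x)).mdifferentiableAt
      (by simp)
  have h7' : MDifferentiableAt 𝓘(ℂ, Cm (p + d)) 𝓘(ℂ, Cm d) ζ x := h2.mdifferentiableAt (by simp)
  have h8 : mfderiv 𝓘(ℂ, Cm (p + d)) 𝓘(ℂ, Cm p) (fun x' => L.χ (f x')) x ξ = 0 := by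
    have h9 := mfderiv_comp_apply x (g := L.χ) (f := f)
      ((L.contMDiffAt_χ hx).mdifferentiableAt (by simp)) ((hf x).mdifferentiableAt (by simp)) ξ
    have h10 : (L.χ : Y → Cm p) ∘ f = fun x' => L.χ (f x') := rfl
    rw [h10] at h9
    rw [h9, hξ]
    exact map_zero _
  have hP : MDifferentiableAt 𝓘(ℂ, Cm (p + d)) 𝓘(ℂ, Cm p × Cm d) (fun x' => (L.χ (f x'), ζ x')) x := by
    rw [modelWithCornersSelf_prod, ← chartedSpaceSelf_prod]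
    exact h7.prodMk h7'
  have hP0 : mfderiv 𝓘(ℂ, Cm (p + d)) 𝓘(ℂ, Cm p × Cm d) (fun x' => (L.χ (f x'), ζ x')) x ξ = 0 := by
    have h11 : mfderiv 𝓘(ℂ, Cm (p + d)) (𝓘(ℂ, Cm p).prod 𝓘(ℂ, Cm d)) (fun x' => (L.χ (f x'), ζ x')) x =
      (mfderiv 𝓘(ℂ, Cm (p + d)) 𝓘(ℂ, Cm p) (fun x' => L.χ (f x')) x).prod
        (mfderiv 𝓘(ℂ, Cm (p + d)) 𝓘(ℂ, Cm d) ζ x) := mfderiv_prodMk h7 h7'
    have h12 : mfderiv 𝓘(ℂ, Cm (p + d)) 𝓘(ℂ, Cm p × Cm d) (fun x' => (L.χ (f x'), ζ x')) x =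
        (mfderiv 𝓘(ℂ, Cm (p + d)) 𝓘(ℂ, Cm p) (fun x' => L.χ (f x')) x).prod
        (mfderiv 𝓘(ℂ, Cm (p + d)) 𝓘(ℂ, Cm d) ζ x) := by
      rw [← h11, modelWithCornersSelf_prod, ← chartedSpaceSelf_prod]
    rw [h12]
    have h13 : mfderiv 𝓘(ℂ, Cm (p + d)) 𝓘(ℂ, Cm d) ζ x ξ = 0 := hξ'
    exact Prod.ext h8 h13
  have h14 := mfderiv_comp_apply x (g := Φ) (f := fun x' => (L.χ (f x'), ζ x')) hΦd hP ξ
  rw [hP0] at h14
  have h15 : (Φ ∘ fun x' => (L.χ (f x'), ζ x')) =ᶠ[𝓝 x] id := by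
    filter_upwards [h4] with x' a
    exact a
  rw [h15.mfderiv_eq, mfderiv_id] at h14
  exact h14.trans (map_zero _)

end DLoc

end Vale.Agent.P281.H64.TK
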