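import Vale.Agent.P281.H64.TK.G2d

/-!
# P281, project T-K (helper64): nondegeneracy, volume
-/

open Set Filter Metric MeasureTheory Vale.Agent.P281 Vale.Agent.P281.H713 Vale.Agent.P272.K
open scoped Topology ContDiff Manifold ComplexConjugate

set_option linter.unusedSectionVars false

noncomputable section

namespace Vale.Agent.P281.H64.TK

open H603.K H864.K

/-! ### Gauss maps -/

section gauss
variable {d : ℕ} {E Γ : Type} [TopologicalSpace E] [Group Γ] [MulAction Γ E]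

/-- the derivatives of the components of an additive map -/
theorem minor_eq_det {S : Sheets d E Γ} (h : E → Cm d) (i : Fin S.N) (z : Cm d) :
    S.minor h i z = (Matrix.of fun j k => fderiv ℂ (fun z => h (S.σ i z) j) z
      (Pi.single k 1)).det := rfl

theorem minor_analyticAt {S : Sheets d E Γ} {h : E → Cm d}
    (hh : ∀ a, ∃ b, Add S (fun e => h e a) b) (i : Fin S.N) {z : Cm d}
    (hz : z ∈ ball (0 : Cm d) 3) : AnalyticAt ℂ (S.minor h i) z := by
  have h1 : ∀ j k, AnalyticAt ℂ (fun z => dd k (fun z => h (S.σ i z) j) z) z := by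
    intro j k
    obtain ⟨b, hb⟩ := hh j
    exact ((ContinuousLinearMap.apply ℂ ℂ (Pi.single k (1 : ℂ) : Cm d)).analyticAt _).comp
      (add_analyticAt hb i hz).fderiv
  have h2 : S.minor h i = fun z => ∑ σ : Equiv.Perm (Fin d), (Equiv.Perm.sign σ : ℤ) •
      ∏ k, dd k (fun z => h (S.σ i z) (σ k)) z := by
    funext z
    rw [Sheets.minor, Matrix.det_apply]
    rfl
  rw [h2]
  refine Finset.analyticAt_fun_sum _ fun σ _ => ?_
  have h3 : AnalyticAt ℂ (fun z => ∏ k, dd k (fun z => h (S.σ i z) (σ k)) z) z :=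
    Finset.analyticAt_fun_prod _ fun k _ => h1 _ _
  have h4 : (fun z => (Equiv.Perm.sign σ : ℤ) • ∏ k, dd k (fun z => h (S.σ i z) (σ k)) z) =
      fun z => ((Equiv.Perm.sign σ : ℤ) : ℂ) * ∏ k, dd k (fun z => h (S.σ i z) (σ k)) z := by
    funext z
    rw [zsmul_eq_mul]
  rw [h4]
  exact analyticAt_const.mul h3

/-- change of sheets -/
theorem minor_change {S S' : Sheets d E Γ} {h : E → Cm d}
    (hh : ∀ a, ∃ b, Add S' (fun e => h e a) b) {i : Fin S.N} {j : Fin S'.N} {z w : Cm d}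
    (hw : w ∈ ball (0 : Cm d) 3) {γ : Γ} {θ : Cm d → Cm d} (h1 : AnalyticAt ℂ θ z)
    (h2 : θ z = w) (h3 : ∀ᶠ u in 𝓝 z, S.σ i u = γ • S'.σ j (θ u)) :
    S.minor h i z = S'.minor h j w * (jac θ z).det := by
  have h4 : ∀ a k, fderiv ℂ (fun u => h (S.σ i u) a) z (Pi.single k 1) =
      ∑ l, fderiv ℂ (fun u => h (S'.σ j u) a) w (Pi.single l 1) * jac θ z l k := by
    intro a k
    obtain ⟨b, hb⟩ := hh a
    have h5 : (fun u => h (S.σ i u) a) =ᶠ[𝓝 z] fun u => h (S'.σ j (θ u)) a + b γ := by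
      filter_upwards [h3] with u hu
      rw [hu, hb.add]
    have hd : DifferentiableAt ℂ (fun u => h (S'.σ j u) a) (θ z) := by
      rw [h2]
      exact (add_analyticAt hb j hw).differentiableAt
    have h6 : fderiv ℂ (fun u => h (S'.σ j (θ u)) a + b γ) z =
        (fderiv ℂ (fun u => h (S'.σ j u) a) (θ z)).comp (fderiv ℂ θ z) := by
      rw [fderiv_add_const]
      exact fderiv_comp (g := fun u => h (S'.σ j u) a) z hd h1.differentiableAt
    rw [h5.fderiv_eq, h6, h2]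
    show (fderiv ℂ (fun u => h (S'.σ j u) a) w) (fderiv ℂ θ z (Pi.single k 1)) = _
    have h7 : fderiv ℂ θ z (Pi.single k 1) =
        ∑ l, (fderiv ℂ θ z (Pi.single k 1) l) • (Pi.single l (1 : ℂ) : Cm d) := by
      funext l
      simp [Finset.sum_apply, Pi.single_apply]
    rw [h7, map_sum]
    refine Finset.sum_congr rfl fun l _ => ?_
    rw [map_smul, smul_eq_mul, mul_comm]
    rfl
  rw [minor_eq_det, minor_eq_det, ← Matrix.det_mul]
  congr 1
  ext a k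
  rw [Matrix.mul_apply]
  exact h4 a k

theorem GaussAt.compat [ContinuousConstSMul Γ E] {S S' : Sheets d E Γ} (hS : HolCompat S S')
    {r : ℕ} {i : Fin S.N} {z : Cm d} (hz : z ∈ ball (0 : Cm d) 3) (h : S.GaussAt r i z) :
    ∃ (j : Fin S'.N) (w : Cm d), ‖w‖ < 1 ∧ S'.GaussAt r j w := by
  obtain ⟨h, hh, h0, hsurj⟩ := h
  obtain ⟨γ, j, w, hw, he⟩ := S'.cover (S.σ i z)
  have hw3 : w ∈ ball (0 : Cm d) 3 := Sh.mem3 hw
  obtain ⟨θ, h1, h2, h3, h4⟩ := hS i j z hz w hw3 γ he.symm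
  have hh' : ∀ k a, ∃ b, Add S' (fun e => h k e a) b := fun k a => by
    obtain ⟨b, hb⟩ := hh k a
    exact ⟨b, add_compat hS hb⟩
  have ht : Tendsto θ (𝓝 z) (𝓝 w) := by
    have := h1.continuousAt.tendsto
    rwa [h2] at this
  -- the minors near `z`
  have hm : ∀ᶠ u in 𝓝 z, ∀ k, S.minor (h k) i u = S'.minor (h k) j (θ u) * (jac θ u).det := by
    filter_upwards [h1.eventually_analyticAt, eventually_eventually_nhds.2 h4,
      ht.eventually (isOpen_ball.mem_nhds hw3)] with u a1 a2 a3 k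
    exact minor_change (hh' k) a3 a1 rfl a2
  have hjne : ∀ᶠ u in 𝓝 z, (jac θ u).det ≠ 0 := by
    have hc : ContinuousAt (fun u => (jac θ u).det) z := by
      have : ContinuousAt (fun u => jac θ u) z := by
        refine continuousAt_pi.2 fun a => continuousAt_pi.2 fun b => ?_
        have h5 : ContinuousAt (fun u => fderiv ℂ θ u (Pi.single b 1)) z :=
          ((ContinuousLinearMap.apply ℂ (Cm d) (Pi.single b (1 : ℂ) : Cm d)).analyticAt _ |>.comp
            h1.fderiv).continuousAt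
        exact (continuous_apply a).continuousAt.comp h5
      exact (Continuous.matrix_det continuous_id).continuousAt.comp this
    exact hc.eventually_ne h3
  have h0' : S'.minor (h 0) j w ≠ 0 := by
    intro h5
    apply h0
    rw [hm.self_of_nhds 0, h2, h5, zero_mul]
  refine ⟨j, w, hw, h, hh', h0', ?_⟩
  -- the ratios
  have hr : ∀ k : Fin r, (fun u => S.minor (h k.succ) i u / S.minor (h 0) i u) =ᶠ[𝓝 z]
      fun u => S'.minor (h k.succ) j (θ u) / S'.minor (h 0) j (θ u) := by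
    intro k
    filter_upwards [hm, hjne] with u a1 a2
    rw [a1, a1, mul_div_mul_right _ _ a2]
  intro v
  obtain ⟨ξ, hξ⟩ := hsurj v
  refine ⟨fderiv ℂ θ z ξ, ?_⟩
  funext k
  have h6 := congrFun hξ k
  simp only at h6
  rw [(hr k).fderiv_eq] at h6
  have hd : DifferentiableAt ℂ (fun u => S'.minor (h k.succ) j u / S'.minor (h 0) j u) (θ z) := by
    rw [h2]
    exact ((minor_analyticAt (hh' _) j hw3).div (minor_analyticAt (hh' _) j hw3)
      h0').differentiableAt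
  have h7 : fderiv ℂ (fun u => S'.minor (h k.succ) j (θ u) / S'.minor (h 0) j (θ u)) z =
      (fderiv ℂ (fun u => S'.minor (h k.succ) j u / S'.minor (h 0) j u) (θ z)).comp
        (fderiv ℂ θ z) :=
    fderiv_comp (g := fun u => S'.minor (h k.succ) j u / S'.minor (h 0) j u) z hd
      h1.differentiableAt
  rw [h7, h2] at h6
  exact h6

theorem GaussAt.of_pull {E' Γ' : Type} [TopologicalSpace E'] [Group Γ'] [MulAction Γ' E']
    {S' : Sheets d E' Γ'} {τ : E ≃ₜ E'} {ρ : Γ ≃* Γ'} {hτ : ∀ γ e, τ (γ • e) = ρ γ • τ e}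
    {r : ℕ} {i : Fin S'.N} {z : Cm d} (h : (S'.pull τ ρ hτ).GaussAt r i z) :
    S'.GaussAt r i z := by
  obtain ⟨h, hh, h0, hsurj⟩ := h
  have h1 : ∀ k, (S'.pull τ ρ hτ).minor (h k) i = S'.minor (fun e => h k (τ.symm e)) i :=
    fun k => rfl
  refine ⟨fun k e => h k (τ.symm e), fun k a => ?_, h0, hsurj⟩
  obtain ⟨b, hb⟩ := hh k a
  refine ⟨fun γ => b (ρ.symm γ), Add.of_pull (τ := τ) (ρ := ρ) (hτ := hτ)
    (h := fun e => h k (τ.symm e) a) ?_⟩
  have h2 : (fun e => (fun e => h k (τ.symm e) a) (τ e)) = fun e => h k e a := by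
    funext e
    simp
  rw [h2]
  exact hb

end gauss

variable {p d : ℕ} {Z Y : Type} [TopologicalSpace Z] [T2Space Z] [ChartedSpace (Cm (p + d)) Z]
  [IsManifold 𝓘(ℂ, Cm (p + d)) ω Z] [TopologicalSpace Y] [T2Space Y] [ChartedSpace (Cm p) Y]
  [IsManifold 𝓘(ℂ, Cm p) ω Y] {f : Z → Y}
  {w : Chart (p + d) Z → Cm (p + d) → Matrix (Fin (p + d)) (Fin (p + d)) ℂ} {n g : ℕ}
  {B : Matrix (Fin n) (Fin n) ℝ} {J : (Fin d ⊕ Fin d → Fin n) → ℝ}

namespace DLoc

/-- nondegeneracy of the fibre, in any local datum -/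
theorem gauss (I : Inputs) (hd : 0 < d) (hf : ContMDiff 𝓘(ℂ, Cm (p + d)) 𝓘(ℂ, Cm p) ω f)
    (hw : IsKahler w) (L : DLoc f w B J g) {y : Y} (hy : y ∈ L.U) {r : ℕ}
    (hN : NDeg (p + d) p d r f y) :
    ∃ (j : Fin L.𝓕.N) (z : Cm d), ‖z‖ < 1 ∧ (L.sh hy).GaussAt r j z := by
  obtain ⟨E₁, Γ₁, _, _, _, _, _, _, 𝓕₁, q₁, χ₁, t₁, ht₁, hM₁, hy₁, i, z, hz, hG⟩ := hN
  obtain ⟨W₁, hW₁, hK₁⟩ := I.w p d Z Y f w E₁ Γ₁ 𝓕₁ q₁ χ₁ hf hM₁ hw
  obtain ⟨τ, ρ, hτ, -, hc, -⟩ := compareK I hd hf hw hM₁ L.model hW₁ L.pull ht₁ (L.hT' hy.2)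
    (by rw [hy₁, L.left_inv hy])
  obtain ⟨j, v, hv, hG'⟩ := GaussAt.compat hc hz hG
  exact ⟨j, v, hv, GaussAt.of_pull hG'⟩

variable {L : DLoc f w B J g}

/-- two lifts of the Albanese map along a slice differ by a constant -/
theorem slice_const (hF2 : F2Stmt) (hd : 0 < d) (hn : n = 2 * g)
    (D : (Fin n → ℝ) ≃L[ℝ] EuclideanSpace ℂ (Fin g)) {y : Y} (hy : y ∈ L.U) (i : Fin L.𝓕.N)
    {z : Cm d} (hz3 : z ∈ ball (0 : Cm d) 3) {h : Cm d → EuclideanSpace ℂ (Fin g)}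
    (hh : ContinuousAt h z)
    (hc : ∀ᶠ v in 𝓝 z, IsCongr (L.π D y) (L.α (L.q (L.χ y) (L.𝓕.σ i (L.χ y) v))) (h v)) :
    ∀ᶠ v in 𝓝 z, h v - WithLp.toLp 2 (L.F (L.χ y) (L.𝓕.σ i (L.χ y) v)) =
      h z - WithLp.toLp 2 (L.F (L.χ y) (L.𝓕.σ i (L.χ y) z)) := by
  have ht := L.hT' hy.2
  have hfc : ∀ u, f (L.q (L.χ y) (L.𝓕.σ i (L.χ y) u)) = y := fun u => by
    rw [L.model.fib _ ht, L.left_inv hy]
  have hFa : ∀ j, AnalyticAt ℂ (fun u => L.F (L.χ y) (L.𝓕.σ i (L.χ y) u) j) z := fun j =>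
    add_analyticAt ((L.bas _ hy.2).add j) i hz3
  have hFc : ContinuousAt (fun u => (WithLp.toLp 2 (L.F (L.χ y) (L.𝓕.σ i (L.χ y) u)) :
      EuclideanSpace ℂ (Fin g))) z := by
    refine (PiLp.continuous_toLp 2 (fun _ : Fin g => ℂ)).continuousAt.comp ?_
    rw [continuousAt_pi]
    exact fun j => (hFa j).continuousAt
  have hwl : ∀ᶠ u in 𝓝 z, ∃ m : Fin n → ℤ,
      h u - WithLp.toLp 2 (L.F (L.χ y) (L.𝓕.σ i (L.χ y) u)) = L.π D y fun i => (m i : ℝ) := by
    filter_upwards [hc] with u hu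
    obtain ⟨m₁, hm₁⟩ := hu
    have hcu : f (L.q (L.χ y) (L.𝓕.σ i (L.χ y) u)) ∈ L.U := by rw [hfc]; exact hy
    have h2 := congr_aux (L := L) hF2 hd hn D (x := L.q (L.χ y) (L.𝓕.σ i (L.χ y) u))
      (e := L.𝓕.σ i (L.χ y) u) hcu (by rw [hfc])
    obtain ⟨m₂, hm₂⟩ := h2
    rw [hfc] at hm₂
    refine ⟨m₁ - m₂, ?_⟩
    rw [hm₁, hm₂]
    have h3 : (fun i => ((m₁ - m₂) i : ℝ)) = (fun i => (m₁ i : ℝ)) - fun i => (m₂ i : ℝ) := by
      funext i
      simp
    rw [h3, map_sub]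
    abel
  exact lattice_const (L.π D y) (hh.sub hFc) hwl

/-- the minors of the Albanese map are the products of additive functions -/
theorem minor_functional {y : Y} (hy : y ∈ L.U) {i : Fin (L.sh hy).N} {z : Cm d}
    (hz3 : z ∈ ball (0 : Cm d) 3) (s : Fin d → Fin g → ℂ) {h : L.E → Cm d} {b : Cm d}
    (hs : ∀ e a, h e a = ∑ j, s a j * L.F (L.χ y) e j + b a) :
    (L.sh hy).minor h i z =
      minor (fun a => LinearMap.toContinuousLinearMap
        (∑ j, s a j • (LinearMap.proj j ∘ₗ (WithLp.linearEquiv 2 ℂ (Fin g → ℂ)).toLinearMap :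
          EuclideanSpace ℂ (Fin g) →ₗ[ℂ] ℂ)))
        (fun u => (WithLp.toLp 2 (L.F (L.χ y) (L.𝓕.σ i (L.χ y) u)) :
          EuclideanSpace ℂ (Fin g))) z := by
  rw [minor_eq_det, minor]
  congr 1
  ext a k
  simp only [Matrix.of_apply]
  have hFa : ∀ j, AnalyticAt ℂ (fun u => L.F (L.χ y) (L.𝓕.σ i (L.χ y) u) j) z := fun j =>
    add_analyticAt ((L.bas _ hy.2).add j) i hz3
  have hFd : DifferentiableAt ℂ (fun u => (WithLp.toLp 2 (L.F (L.χ y) (L.𝓕.σ i (L.χ y) u)) :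
      EuclideanSpace ℂ (Fin g))) z :=
    (PiLp.continuousLinearEquiv 2 ℂ (fun _ : Fin g => ℂ)).symm.differentiableAt.comp z
      (differentiableAt_pi.2 fun j => (hFa j).differentiableAt)
  set m : EuclideanSpace ℂ (Fin g) →L[ℂ] ℂ := LinearMap.toContinuousLinearMap
        (∑ j, s a j • (LinearMap.proj j ∘ₗ (WithLp.linearEquiv 2 ℂ (Fin g → ℂ)).toLinearMap :
          EuclideanSpace ℂ (Fin g) →ₗ[ℂ] ℂ)) with hm
  have h1 : (fun u => h ((L.sh hy).σ i u) a) = fun u => m (WithLp.toLp 2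
      (L.F (L.χ y) (L.𝓕.σ i (L.χ y) u))) + b a := by
    funext u
    have h2 := hs ((L.sh hy).σ i u) a
    rw [h2]
    congr 1
    rw [hm]
    simp only [LinearMap.coe_toContinuousLinearMap', LinearMap.sum_apply, LinearMap.smul_apply]
    rfl
  rw [h1, fderiv_add_const]
  have h3 : fderiv ℂ (fun u => m (WithLp.toLp 2 (L.F (L.χ y) (L.𝓕.σ i (L.χ y) u)))) z =
      m.comp (fderiv ℂ (fun u => (WithLp.toLp 2 (L.F (L.χ y) (L.𝓕.σ i (L.χ y) u)) :
      EuclideanSpace ℂ (Fin g))) z) :=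
    (m.hasFDerivAt.comp z hFd.hasFDerivAt).fderiv
  rw [h3]
  rfl

end DLoc

end Vale.Agent.P281.H64.TK
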