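import Vale.Agent.P281.H64.TK.G2c

/-!
# P281, project T-K (helper64): nondegeneracy, volume, the Albanese family
-/

open Set Filter Metric MeasureTheory Vale.Agent.P281 Vale.Agent.P281.H713 Vale.Agent.P272.K
open scoped Topology ContDiff Manifold ComplexConjugate NNReal

set_option linter.unusedSectionVars false

noncomputable section

namespace Vale.Agent.P281.H64.TK

open H603.K H864.K

variable {p d : ℕ} {Z Y : Type} [TopologicalSpace Z] [T2Space Z] [ChartedSpace (Cm (p + d)) Z]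
  [IsManifold 𝓘(ℂ, Cm (p + d)) ω Z] [TopologicalSpace Y] [T2Space Y] [ChartedSpace (Cm p) Y]
  [IsManifold 𝓘(ℂ, Cm p) ω Y] {f : Z → Y}
  {w : Chart (p + d) Z → Cm (p + d) → Matrix (Fin (p + d)) (Fin (p + d)) ℂ} {n g : ℕ}
  {B : Matrix (Fin n) (Fin n) ℝ} {J : (Fin d ⊕ Fin d → Fin n) → ℝ}

theorem contMDiffAt_slice {n p d : ℕ} {Z : Type} [TopologicalSpace Z] [ChartedSpace (Cm n) Z]
    {F : Cm p × Cm d → Z} {t : Cm p} {z : Cm d}
    (h : ContMDiffAt 𝓘(ℂ, Cm p × Cm d) 𝓘(ℂ, Cm n) ω F (t, z)) :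
    ContMDiffAt 𝓘(ℂ, Cm d) 𝓘(ℂ, Cm n) ω (fun u => F (t, u)) z := by
  have h1 : ContMDiffAt 𝓘(ℂ, Cm d) 𝓘(ℂ, Cm p × Cm d) ω (fun u : Cm d => (t, u)) z :=
    ContDiffAt.contMDiffAt (by fun_prop)
  exact ContMDiffAt.comp z (g := F) (f := fun u : Cm d => (t, u)) h h1

theorem minor_congr {V : Type} [NormedAddCommGroup V] [InnerProductSpace ℂ V]
    [FiniteDimensional ℂ V] (m : Fin d → (V →L[ℂ] ℂ)) {h h' : Cm d → V} {v : Cm d}
    (hh : fderiv ℂ h v = fderiv ℂ h' v) : minor m h v = minor m h' v := by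
  unfold minor
  rw [hh]

namespace DLoc

variable {L : DLoc f w B J g}

theorem nondeg (I : Inputs) (hd : 0 < d) (hn : n = 2 * g)
    (hf : ContMDiff 𝓘(ℂ, Cm (p + d)) 𝓘(ℂ, Cm p) ω f) (hw : IsKahler w)
    (D : (Fin n → ℝ) ≃L[ℝ] EuclideanSpace ℂ (Fin g)) {y : Y} (hy : y ∈ L.U)
    (hN : NDeg (p + d) p d d f y) :
    ∃ (q : (Fin d → ℂ) → Z) (v₀ : Fin d → ℂ),
      ContMDiffAt 𝓘(ℂ, Fin d → ℂ) 𝓘(ℂ, Cm (p + d)) ω q v₀ ∧ (∀ᶠ v in 𝓝 v₀, f (q v) = y) ∧
      ∀ h : (Fin d → ℂ) → EuclideanSpace ℂ (Fin g), ContDiffAt ℂ ω h v₀ →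
      (∀ᶠ v in 𝓝 v₀, IsCongr (L.π D y) (L.α (q v)) (h v)) → IsNondeg h v₀ := by
  obtain ⟨i, z, hz, hG⟩ := L.gauss I hd hf hw hy hN
  have hz3 : z ∈ ball (0 : Cm d) 3 := Sh.mem3 hz
  have ht := L.hT' hy.2
  have hK := kah_fib L.kfam ht
  have hC2 := (I.c2 d L.E L.Γ (L.sh hy) _ hd hK).2
  obtain ⟨hG, hGa, hG0, hGs⟩ := hG
  -- the functions in terms of the basis
  have hbas := L.bas _ hy.2
  have hlin : ∀ k, ∃ (s : Fin d → Fin g → ℂ) (b : Cm d), ∀ e a,
      hG k e a = ∑ j, s a j * L.F (L.χ y) e j + b a := by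
    intro k
    choose b hb using hGa k
    choose s hs using fun a => hbas.span _ _ (hb a)
    obtain ⟨e₀⟩ : Nonempty L.E := inferInstance
    refine ⟨s, fun a => hG k e₀ a - ∑ j, s a j * L.F (L.χ y) e₀ j, fun e a => ?_⟩
    have h1 := Add.sum hbas.add (s a)
    have h2 : Add (L.sh hy) (fun e => hG k e a) (fun γ => ∑ j, s a j * L.c (L.χ y) γ j) := by
      have h3 : b a = fun γ => ∑ j, s a j * L.c (L.χ y) γ j := funext fun γ => hs a γ
      rw [← h3]
      exact hb a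
    have h4 := h2.diff_const hC2 h1 e e₀
    linear_combination h4
  choose s b hsb using hlin
  refine ⟨fun v => L.q (L.χ y) (L.𝓕.σ i (L.χ y) v), z,
    contMDiffAt_slice (L.model.hol i _ ht z hz3),
    Eventually.of_forall fun v => by rw [L.model.fib _ ht, L.left_inv hy], ?_⟩
  intro h hh hc
  have hconst := slice_const I.f2 hd hn D hy i hz3 hh.continuousAt hc
  -- the derivatives
  have hev : ∀ᶠ v in 𝓝 z, fderiv ℂ h v = fderiv ℂ (fun u => (WithLp.toLp 2
      (L.F (L.χ y) (L.𝓕.σ i (L.χ y) u)) : EuclideanSpace ℂ (Fin g))) v := by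
    filter_upwards [eventually_eventually_nhds.2 hconst] with v hv
    have h1 : h =ᶠ[𝓝 v] fun u => (WithLp.toLp 2 (L.F (L.χ y) (L.𝓕.σ i (L.χ y) u)) :
        EuclideanSpace ℂ (Fin g)) + (h z - WithLp.toLp 2 (L.F (L.χ y) (L.𝓕.σ i (L.χ y) z))) := by
      filter_upwards [hv] with u hu
      rw [← hu]
      abel
    rw [h1.fderiv_eq, fderiv_add_const]
  set m : Fin (d + 1) → Fin d → (EuclideanSpace ℂ (Fin g) →L[ℂ] ℂ) := fun k a =>
    LinearMap.toContinuousLinearMap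
        (∑ j, s k a j • (LinearMap.proj j ∘ₗ (WithLp.linearEquiv 2 ℂ (Fin g → ℂ)).toLinearMap :
          EuclideanSpace ℂ (Fin g) →ₗ[ℂ] ℂ)) with hm
  have hmin : ∀ k, minor (m k) h =ᶠ[𝓝 z] (L.sh hy).minor (hG k) i := by
    intro k
    filter_upwards [hev, isOpen_ball.mem_nhds hz3] with v h1 h2
    rw [minor_congr (m k) h1]
    exact (minor_functional hy h2 (s k) (hsb k)).symm
  refine ⟨fun c ξ hcξ => ?_, fun l hl => ?_⟩
  · -- the jets
    have hD : ∀ k, DifferentiableAt ℂ ((L.sh hy).minor (hG k) i) z := fun k =>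
      (minor_analyticAt (hGa k) i hz3).differentiableAt
    have h1 : ∀ k, c * (L.sh hy).minor (hG k) i z +
        fderiv ℂ ((L.sh hy).minor (hG k) i) z ξ = 0 := by
      intro k
      have h2 := hcξ (m k)
      rw [(hmin k).fderiv_eq, (hmin k).eq_of_nhds] at h2
      exact h2
    have h2 : ∀ k : Fin d, fderiv ℂ (fun u => (L.sh hy).minor (hG k.succ) i u /
        (L.sh hy).minor (hG 0) i u) z ξ = 0 := by
      intro k
      set R : Cm d → ℂ := fun u => (L.sh hy).minor (hG k.succ) i u / (L.sh hy).minor (hG 0) i u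
        with hR
      have hRd : DifferentiableAt ℂ R z :=
        ((minor_analyticAt (hGa _) i hz3).div (minor_analyticAt (hGa _) i hz3)
          hG0).differentiableAt
      have h3 : (L.sh hy).minor (hG k.succ) i =ᶠ[𝓝 z] fun u => R u * (L.sh hy).minor (hG 0) i u := by
        filter_upwards [(minor_analyticAt (hGa 0) i hz3).continuousAt.eventually_ne hG0] with u hu
        rw [hR]
        simp only
        rw [div_mul_cancel₀ _ hu]
      have h5 := h1 k.succ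
      have h6 := h1 0
      rw [h3.fderiv_eq, fderiv_fun_mul hRd (hD 0), h3.eq_of_nhds] at h5
      simp only [_root_.add_apply, _root_.smul_apply, smul_eq_mul] at h5
      have h7 : (L.sh hy).minor (hG 0) i z * fderiv ℂ R z ξ = 0 := by
        linear_combination h5 - R z * h6
      exact (mul_eq_zero.1 h7).resolve_left hG0
    set T : Cm d →ₗ[ℂ] (Fin d → ℂ) := LinearMap.pi fun k =>
      (fderiv ℂ (fun u => (L.sh hy).minor (hG k.succ) i u / (L.sh hy).minor (hG 0) i u) z :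
        Cm d →L[ℂ] ℂ).toLinearMap with hT
    have hTs : Function.Surjective T := fun v => by
      obtain ⟨ξ', hξ'⟩ := hGs v
      exact ⟨ξ', hξ'⟩
    have hTi : Function.Injective T := LinearMap.injective_iff_surjective.2 hTs
    have hξ0 : ξ = 0 := hTi (by
      rw [map_zero]
      funext k
      exact h2 k)
    refine ⟨?_, hξ0⟩
    have h3 := h1 0
    rw [hξ0, map_zero, add_zero] at h3
    exact (mul_eq_zero.1 h3).resolve_right hG0
  · -- no hyperplane
    set s' : Fin g → ℂ := fun j => l (WithLp.toLp 2 (Pi.single j 1)) with hs'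
    have hadd := Add.sum hbas.add s'
    have hev' : ∀ᶠ e in 𝓝 (L.𝓕.σ i (L.χ y) z), ∑ j, s' j * L.F (L.χ y) e j =
        ∑ j, s' j * L.F (L.χ y) (L.𝓕.σ i (L.χ y) z) j := by
      rw [← L.𝓕.map_nhds' i _ ht z hz3, eventually_map]
      filter_upwards [hconst, hl] with u h1 h2
      have h4 : (WithLp.toLp 2 (L.F (L.χ y) (L.𝓕.σ i (L.χ y) u)) : EuclideanSpace ℂ (Fin g)) =
          h u - h z + WithLp.toLp 2 (L.F (L.χ y) (L.𝓕.σ i (L.χ y) z)) := by
        rw [sub_eq_sub_iff_sub_eq_sub] at h1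
        rw [h1]
        abel
      have h6 := congrArg l h4
      rw [map_add, map_sub, h2, sub_self, zero_add, functional_eq, functional_eq] at h6
      exact h6
    have hconst' : ∀ e, ∑ j, s' j * L.F (L.χ y) e j =
        ∑ j, s' j * L.F (L.χ y) (L.𝓕.σ i (L.χ y) z) j := fun e =>
      const_of_eventually hadd hev' e
    have hper := hadd.per_zero (fun e e' => by rw [hconst' e, hconst' e'])
    have hs0 := hbas.indep s' hper
    ext v
    have h8 := functional_eq l ((WithLp.equiv 2 _) v)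
    have h9 : (WithLp.toLp 2 ((WithLp.equiv 2 _) v) : EuclideanSpace ℂ (Fin g)) = v := rfl
    rw [h9] at h8
    rw [h8]
    have h10 : ∀ j, l (WithLp.toLp 2 (Pi.single j 1)) = 0 := fun j => congrFun hs0 j
    rw [zero_apply]
    exact Finset.sum_eq_zero fun j _ => by rw [h10, zero_mul]

/-- lift of a polydisc to the covering -/
theorem lift_poly {y : Y} (hy : y ∈ L.U) {q : Cm d → Z}
    {v₀ : Cm d} {r : ℝ} (hq : IsPolydisc (Cm (p + d)) f q v₀ r) (hqy : f (q v₀) = y) (hr : 0 < r) :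
    ∃ q' : Cm d → L.E, (∀ v ∈ ball v₀ r, L.q (L.χ y) (q' v) = q v) ∧
      PolyIn (L.sh hy) q' v₀ r := by
  classical
  have ht := L.hT' hy.2
  obtain ⟨hq1, hq2, hq3⟩ := hq
  have hfy : ∀ v ∈ ball v₀ r, f (q v) = L.χ.symm (L.χ y) := fun v hv => by
    rw [hq3 v hv, hqy, L.left_inv hy]
  have hcov := L.model.cov _ ht
  have : LocallyPathConnectedSpace (ball v₀ r) := isOpen_ball.locallyPathConnectedSpace
  have : ContractibleSpace (ball v₀ r) :=
    (convex_ball v₀ r).contractibleSpace (nonempty_ball.2 hr)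
  let φ : C(ball v₀ r, f ⁻¹' {L.χ.symm (L.χ y)}) := ⟨fun v => ⟨q v, hfy v v.2⟩, by
    refine Continuous.subtype_mk ?_ _
    have h1 : ContinuousOn q (ball v₀ r) := fun v hv => (hq1 v hv).continuousAt.continuousWithinAt
    exact h1.comp_continuous continuous_subtype_val fun v => v.2⟩
  have hv₀ : v₀ ∈ ball v₀ r := mem_ball_self hr
  obtain ⟨e₀, he₀⟩ : ∃ e₀, L.q (L.χ y) e₀ = q v₀ := by
    have hmem : f (q v₀) ∈ L.U := by rw [hqy]; exact hy
    have := L.exists_pt hmem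
    rw [hqy] at this
    exact this
  obtain ⟨Φ, ⟨hΦ0, hΦ⟩, -⟩ := hcov.existsUnique_continuousMap_lifts φ ⟨v₀, hv₀⟩ e₀
    (Subtype.ext he₀)
  have hΦ' : ∀ v : ball v₀ r, L.q (L.χ y) (Φ v) = q v := fun v =>
    congrArg Subtype.val (congrFun hΦ v)
  set q' : Cm d → L.E := fun v => if h : v ∈ ball v₀ r then Φ ⟨v, h⟩ else Classical.arbitrary _
    with hq'
  have hq'v : ∀ v (hv : v ∈ ball v₀ r), q' v = Φ ⟨v, hv⟩ := fun v hv => by
    rw [hq']
    simp only
    rw [dif_pos hv]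
  have hqq : ∀ v ∈ ball v₀ r, L.q (L.χ y) (q' v) = q v := fun v hv => by
    rw [hq'v v hv, hΦ']
  have hcont : ∀ v ∈ ball v₀ r, ContinuousAt q' v := by
    intro v hv
    have h1 : ContinuousOn q' (ball v₀ r) := by
      rw [continuousOn_iff_continuous_domRestrict]
      have h2 : (ball v₀ r).domRestrict q' = Φ := by
        funext v
        exact hq'v v v.2
      rw [h2]
      exact Φ.continuous
    exact h1.continuousAt (isOpen_ball.mem_nhds hv)
  refine ⟨q', hqq, ⟨fun v hv i z hz γ he => ?_, fun v hv v' hv' γ he => ?_⟩⟩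
  · have hpt : L.q (L.χ y) (L.𝓕.σ i (L.χ y) z) = q v := by
      rw [← hqq v hv, he]
      exact (L.model.eq _ ht _ _).2 ⟨γ, rfl⟩
    obtain ⟨ζ, h1, h2, h3⟩ := L.model.coord i _ ht z hz
    rw [hpt] at h1 h2 h3
    have hqc := (hq1 v hv).continuousAt
    have han : AnalyticAt ℂ (fun u => ζ (q u)) v := by
      have h4 : ContMDiffAt 𝓘(ℂ, Cm d) 𝓘(ℂ, Cm d) ω (fun u => ζ (q u)) v :=
        ContMDiffAt.comp v (g := ζ) (f := q) h1 (hq1 v hv)
      have h5 : ContDiffAt ℂ ω (fun u => ζ (q u)) v := h4.contDiffAt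
      exact h5.analyticAt
    refine ⟨fun u => ζ (q u), han, h2, ?_⟩
    have hopen : (fun w => γ • L.𝓕.σ i (L.χ y) w) '' ball 0 3 ∈
        𝓝 (γ • L.𝓕.σ i (L.χ y) z) :=
      (Sh.isOpen_image_smul (L.sh hy) γ i isOpen_ball (Subset.refl _)).mem_nhds ⟨z, hz, rfl⟩
    have h4 : ∀ᶠ u in 𝓝 v, q' u ∈ (fun w => γ • L.𝓕.σ i (L.χ y) w) '' ball 0 3 :=
      (hcont v hv).eventually (by
        show ∀ᶠ e in 𝓝 (q' v), e ∈ _
        rw [he]; exact hopen)
    have h5 : ∀ᶠ u in 𝓝 v, ζ (q u) ∈ ball (0 : Cm d) 3 := han.continuousAt.eventually (by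
      show ∀ᶠ w in 𝓝 (ζ (q v)), w ∈ ball (0 : Cm d) 3
      rw [h2]; exact isOpen_ball.mem_nhds hz)
    filter_upwards [hqc.eventually h3, h4, h5, isOpen_ball.mem_nhds hv] with u a b c hu
    obtain ⟨w, hw, hwe⟩ := b
    simp only at hwe
    have hχ : L.χ (f (q u)) = L.χ y := by rw [hq3 u hu, hqy]
    rw [hχ] at a
    have h6 : L.q (L.χ y) (L.𝓕.σ i (L.χ y) w) =
        L.q (L.χ y) (L.𝓕.σ i (L.χ y) (ζ (q u))) := by
      rw [a, ← hqq u hu, ← hwe]
      exact (L.model.eq _ ht _ _).2 ⟨γ, rfl⟩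
    obtain ⟨γ₂, hγ₂⟩ := (L.model.eq _ ht _ _).1 h6
    obtain ⟨-, h8⟩ := L.𝓕.inj i _ ht w hw _ c γ₂ hγ₂
    rw [← hwe, h8]
    rfl
  · apply hq2 hv hv'
    rw [← hqq v hv, ← hqq v' hv', he]
    exact ((L.model.eq _ ht _ _).2 ⟨γ, rfl⟩).symm

/-- volumes of the polydiscs -/
theorem volume {A : ℝ≥0} (hF2 : F2Stmt) (hd : 0 < d) (hn : n = 2 * g)
    (hA : ∀ (E Γ : Type) [TopologicalSpace E] [T2Space E] [SimplyConnectedSpace E]
      [Group Γ] [MulAction Γ E] [ContinuousConstSMul Γ E] (S : Sheets d E Γ) (M : H64.Mark Γ n)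
      (F : E → Fin g → ℂ) (c : Γ → Fin g → ℂ), HasJac S M J → IsBas S F c →
      ∀ π : (Fin n → ℝ) ≃L[ℝ] EuclideanSpace ℂ (Fin g), (∀ x, π x = perMap M c x) →
      ∀ G : EuclideanSpace ℂ (Fin g) ≃L[ℂ] EuclideanSpace ℂ (Fin g), (∀ x x',
        (inner ℂ (G (π x)) (G (π x'))).im = ∑ k, ∑ l, B⁻¹ k l * x' k * x l) →
        ∀ (q : Cm d → E) (v₀ : Cm d) (r : ℝ), PolyIn S q v₀ r →
        ∀ m : Fin d → (EuclideanSpace ℂ (Fin g) →L[ℂ] ℂ), (∀ i, ‖m i‖ ≤ 1) →
          ∫⁻ v in ball v₀ r, ‖H713.minor m (fun u => G (WithLp.toLp 2 fun j => F (q u) j)) v‖ₑ ^ 2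
            ≤ A)
    (D : (Fin n → ℝ) ≃L[ℝ] EuclideanSpace ℂ (Fin g)) {q : Cm d → Z} {v₀ : Cm d} {r : ℝ}
    (hq : IsPolydisc (Cm (p + d)) f q v₀ r) (hy : f (q v₀) ∈ L.U)
    {h : Cm d → EuclideanSpace ℂ (Fin g)} (hh : DifferentiableOn ℂ h (ball v₀ r))
    (hc : ∀ v ∈ ball v₀ r, IsCongr (L.π D (f (q v₀))) (L.α (q v)) (h v))
    {G : EuclideanSpace ℂ (Fin g) ≃L[ℂ] EuclideanSpace ℂ (Fin g)}
    (hG : ∀ x x', (inner ℂ (G (L.π D (f (q v₀)) x)) (G (L.π D (f (q v₀)) x'))).im = Qf B x x')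
    (m : Fin d → (EuclideanSpace ℂ (Fin g) →L[ℂ] ℂ)) (hm : ∀ i, ‖m i‖ ≤ 1) :
    ∫⁻ v in ball v₀ r, ‖minor m (fun u => G (h u)) v‖ₑ ^ 2 ≤ A := by
  rcases le_or_gt r 0 with hr | hr
  · rw [ball_eq_empty.2 hr]
    simp
  obtain ⟨q', hqq, hpoly⟩ := lift_poly (L := L) hy hq rfl hr
  set y := f (q v₀) with hydef
  have ht := L.hT' hy.2
  have h1 := hA L.E L.Γ (L.sh hy) L.M (L.F (L.χ y)) (L.c (L.χ y))
    ((L.top _ ht).jac _ (compat_refl _)) (L.bas _ hy.2) (L.π D y) (π_spec hF2 hd hn D hy) G hG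
    q' v₀ r hpoly m hm
  have hderiv : ∀ v ∈ ball v₀ r, minor m (fun u => G (h u)) v =
      minor m (fun u => G (WithLp.toLp 2 fun j => L.F (L.χ y) (q' u) j)) v := by
    intro v hv
    apply minor_congr
    obtain ⟨γ, i, z, hz, he⟩ := (L.sh hy).cover (q' v)
    have hz3 := Sh.mem3 hz
    obtain ⟨θ, k1, k2, k3⟩ := hpoly.hol v hv i z hz3 γ he.symm
    -- continuity of `F ∘ q'`
    have hcF : ContinuousAt (fun v => (WithLp.toLp 2 (L.F (L.χ y) (q' v)) :
        EuclideanSpace ℂ (Fin g))) v := by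
      refine (PiLp.continuous_toLp 2 (fun _ : Fin g => ℂ)).continuousAt.comp ?_
      rw [continuousAt_pi]
      intro j
      have h2 : ContinuousAt (fun u => L.F (L.χ y) (γ • L.𝓕.σ i (L.χ y) (θ u)) j) v := by
        have h3 := (((L.bas _ hy.2).add j).analyticAt γ i hz3).continuousAt
        exact ContinuousAt.comp (g := fun z => L.F (L.χ y) (γ • L.𝓕.σ i (L.χ y) z) j)
          (f := θ) (by rw [k2]; exact h3) k1.continuousAt
      refine h2.congr ?_
      filter_upwards [k3] with u hu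
      rw [hu]
      rfl
    -- the difference is locally constant
    have hcont : ContinuousAt (fun u => h u - (WithLp.toLp 2 (L.F (L.χ y) (q' u)) :
        EuclideanSpace ℂ (Fin g))) v :=
      (hh.differentiableAt (isOpen_ball.mem_nhds hv)).continuousAt.sub hcF
    have hlat : ∀ᶠ u in 𝓝 v, ∃ m : Fin n → ℤ, h u - (WithLp.toLp 2 (L.F (L.χ y) (q' u)) :
        EuclideanSpace ℂ (Fin g)) = L.π D y fun i => (m i : ℝ) := by
      filter_upwards [isOpen_ball.mem_nhds hv] with u hu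
      obtain ⟨m₁, hm₁⟩ := hc u hu
      have hfu : f (q u) = y := hq.2.2 u hu
      have h5 := congr_aux (L := L) hF2 hd hn D (x := q u) (e := q' u) (by rw [hfu]; exact hy)
        (by rw [hfu]; exact hqq u hu)
      obtain ⟨m₂, hm₂⟩ := h5
      rw [hfu] at hm₂
      refine ⟨m₁ - m₂, ?_⟩
      rw [hm₁, hm₂]
      have h3 : (fun i => ((m₁ - m₂) i : ℝ)) = (fun i => (m₁ i : ℝ)) - fun i => (m₂ i : ℝ) := by
        funext i
        simp
      rw [h3, map_sub]
      abel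
    have hlc := lattice_const (L.π D y) hcont hlat
    have h6 : (fun u => G (h u)) =ᶠ[𝓝 v] fun u => G (WithLp.toLp 2 (L.F (L.χ y) (q' u)) :
        EuclideanSpace ℂ (Fin g)) + G (h v - WithLp.toLp 2 (L.F (L.χ y) (q' v))) := by
      filter_upwards [hlc] with u hu
      rw [← hu, ← map_add]
      congr 1
      abel
    rw [h6.fderiv_eq, fderiv_add_const]
  refine le_trans (le_of_eq ?_) h1
  refine setLIntegral_congr_fun measurableSet_ball fun v hv => ?_
  simp only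
  rw [hderiv v hv]

end DLoc

/-- **ALB** -/
theorem alb (I : Inputs) : AlbStmt := by
  intro p d Z Y _ _ _ _ _ _ _ _ f S w hd hf hP hconn hw hN hne
  obtain ⟨y₁, hy₁⟩ := hne
  obtain ⟨n, g, hn, B, J, hJ, hL⟩ := dglob I hd hf hw hP hconn hy₁
  choose L h1 h2 h3 using fun a : {y // y ∉ S} => hL a.1 a.2
  have h4 : ∀ a, a.1 ∈ (L a).U := fun a => ⟨h1 a, h2 a⟩
  choose hB D hD using fun a => (L a).F2_at I.f2 hd hn (h2 a)
  obtain ⟨A, hA⟩ := I.f2.2 d n g B J hd hJ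
  refine ⟨g, n, Qf B, {y // y ∉ S}, fun a => (L a).U, fun a => (L a).π (D a),
    fun a => (L a).α, ?_⟩
  constructor
  · constructor
    · intro y
      constructor
      · intro hy
        exact ⟨⟨y, hy⟩, h4 ⟨y, hy⟩⟩
      · rintro ⟨a, ha⟩
        have h5 := h3 a _ ha.2
        rwa [(L a).left_inv ha] at h5
    · exact fun a => (L a).isOpen_U
    · exact fun a x y hy => DLoc.hol_π I.f2 hd hn (D a) x hy
    · exact fun a y hy => DLoc.polarized I.f2 hd hn (D a) hy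
  · intro x hx
    exact DLoc.coord (L := L ⟨f x, hx⟩) hf (h4 ⟨f x, hx⟩)
  · exact fun a x hx => DLoc.lift I.f2 hd hn hf (D a) hx
  · intro a y hy
    have hyS : y ∉ S := by
      have h5 := h3 a _ hy.2
      rwa [(L a).left_inv hy] at h5
    exact DLoc.nondeg I hd hn hf hw (D a) hy (hN y hyS)
  · refine ⟨A, fun a q v₀ r hq hy h hh hc G hG m hm => ?_⟩
    exact DLoc.volume (L := L a) I.f2 hd hn hA (D a) hq hy hh hc hG m hm
  · intro a b y hy
    exact DLoc.change I hd hn hf hw (L a) (L b) (D a) (D b) hy.1 hy.2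

end Vale.Agent.P281.H64.TK
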